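import Vale.Agent.P193.Full.Calc.Frame

/-! The hypotheses on generators that follow from finitely many true identities: a true identity
between words in trivial-coefficient elements and generators holds eventually, and commutation
with a finitely generated subgroup too. -/

namespace Vale.Agent.P193.Calc

open Classical

variable {S : Type} {F : Frame S}

namespace Frame

/-- `φ` is the map of the trivial-coefficient group given by the generators. -/
def IsPhi (M : F.Model) (φ : Vgrp S →* M.P) : Prop :=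
  ∀ j, φ (F.vgen j) = M.f (FreeGroup.of (Sum.inl j))

theorem exists_word (v : Vgrp S) : ∃ x : FreeGroup (Fin F.m), FreeGroup.lift F.vgen x = v := by
  have : (FreeGroup.lift F.vgen).range = ⊤ := by
    rw [FreeGroup.range_lift_eq_closure]; exact F.vgen_top
  exact MonoidHom.range_eq_top.1 this v

/-- A chosen word for a trivial-coefficient element. -/
noncomputable def word (v : Vgrp S) : F.Free :=
  FreeGroup.map Sum.inl (exists_word (F := F) v).choose

theorem eval_word (v : Vgrp S) : F.eval (word v) = v.1 := by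
  have h : F.eval.comp (FreeGroup.map Sum.inl) =
      (swapGroup (coeffOf (S := S) ∅)).subtype.comp (FreeGroup.lift F.vgen) :=
    FreeGroup.ext_hom _ _ fun j => by simp [eval, genPerm]
  have := DFunLike.congr_fun h (exists_word (F := F) v).choose
  rwa [MonoidHom.comp_apply, MonoidHom.comp_apply, (exists_word v).choose_spec] at this

theorem IsPhi.word {M : F.Model} {φ : Vgrp S →* M.P} (h : IsPhi M φ) (v : Vgrp S) :
    φ v = M.f (Frame.word v) := by
  have hh : φ.comp (FreeGroup.lift F.vgen) = M.f.comp (FreeGroup.map Sum.inl) :=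
    FreeGroup.ext_hom _ _ fun j => by simpa using h j
  have := DFunLike.congr_fun hh (exists_word (F := F) v).choose
  rwa [MonoidHom.comp_apply, MonoidHom.comp_apply, (exists_word v).choose_spec] at this

/-- Words in trivial-coefficient elements and generators. -/
abbrev Mixed (F : Frame S) := FreeGroup (Vgrp S ⊕ F.ι)

/-- Their value as permutations. -/
noncomputable def evalMixed : F.Mixed →* Equiv.Perm (Sp S) :=
  FreeGroup.lift (Sum.elim (fun v => v.1) fun i => F.genPerm (.inr i))

/-- Their value in a model. -/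
noncomputable def mixed (M : F.Model) (φ : Vgrp S →* M.P) : F.Mixed →* M.P :=
  FreeGroup.lift (Sum.elim φ fun i => M.f (FreeGroup.of (Sum.inr i)))

/-- A true identity between mixed words holds eventually. -/
theorem Ev.mixed {a b : F.Mixed} (h : evalMixed a = evalMixed b) :
    F.Ev fun M => ∀ φ, IsPhi M φ → Frame.mixed M φ a = Frame.mixed M φ b := by
  let ζ : F.Mixed →* F.Free :=
    FreeGroup.lift (Sum.elim Frame.word fun i => FreeGroup.of (Sum.inr i))
  have hz : F.eval.comp ζ = evalMixed := FreeGroup.ext_hom _ _ fun x => by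
    rcases x with v | i
    · simp [ζ, evalMixed, eval_word]
    · simp [ζ, evalMixed, eval]
  refine (Ev.rel (a := ζ a) (b := ζ b) ?_).mono fun M hM φ hφ => ?_
  · rw [← MonoidHom.comp_apply, ← MonoidHom.comp_apply, hz, h]
  · have hm : M.f.comp ζ = Frame.mixed M φ := FreeGroup.ext_hom _ _ fun x => by
      rcases x with v | i
      · simp [ζ, Frame.mixed, hφ.word v]
      · simp [ζ, Frame.mixed]
    rwa [← hm]

/-- The generators are eventually involutions. -/
theorem ev_invol : F.Ev fun M =>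
    ∀ i, M.f (FreeGroup.of (Sum.inr i)) * M.f (FreeGroup.of (Sum.inr i)) = 1 := by
  have := F.fin_ι
  refine Ev.all fun i => (Ev.rel (a := FreeGroup.of (Sum.inr i) * FreeGroup.of (Sum.inr i))
    (b := 1) ?_).mono fun M hM => by simpa using hM
  simp only [map_mul, map_one, eval, FreeGroup.lift_apply_of, genPerm]
  split
  · next h => exact Equiv.ext fun x => (swapPerm h.choose).left_inv x
  · rfl

/-- Eventually, `G_j` is the conjugate of `G_i` by `k`, when this is true. -/
theorem ev_conj (i j : F.ι) (k : Vgrp S)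
    (h : F.genPerm (.inr j) = k.1 * F.genPerm (.inr i) * (k.1)⁻¹) :
    F.Ev fun M => ∀ φ, IsPhi M φ →
      M.f (FreeGroup.of (Sum.inr j)) = φ k * M.f (FreeGroup.of (Sum.inr i)) * (φ k)⁻¹ := by
  refine (Ev.mixed (a := FreeGroup.of (Sum.inr j))
    (b := FreeGroup.of (Sum.inl k) * FreeGroup.of (Sum.inr i) *
      (FreeGroup.of (Sum.inl k))⁻¹) ?_).mono fun M hM φ hφ => ?_
  · simpa [evalMixed] using h
  · simpa [Frame.mixed] using hM φ hφ

/-- Eventually, a generator commutes with a finitely generated subgroup of trivial-coefficient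
elements, when this is true. -/
theorem ev_commute {K : Subgroup (Vgrp S)} (hK : K.FG) (i : F.ι)
    (h : ∀ v ∈ K, Commute (F.genPerm (.inr i)) v.1) :
    F.Ev fun M => ∀ φ, IsPhi M φ → ∀ v ∈ K, Commute (M.f (FreeGroup.of (Sum.inr i))) (φ v) := by
  obtain ⟨T, rfl⟩ := hK
  refine (Ev.all (β := T) fun t => Ev.mixed
    (a := FreeGroup.of (Sum.inr i) * FreeGroup.of (Sum.inl t.1))
    (b := FreeGroup.of (Sum.inl t.1) * FreeGroup.of (Sum.inr i)) ?_).mono fun M hM φ hφ v hv => ?_
  · simpa [evalMixed] using (h t.1 (Subgroup.subset_closure t.2)).eq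
  · induction hv using Subgroup.closure_induction with
    | mem x hx => exact by simpa [Frame.mixed, Commute, SemiconjBy] using hM ⟨x, hx⟩ φ hφ
    | one => simp
    | mul a b _ _ ha hb => rw [map_mul]; exact ha.mul_right hb
    | inv a _ ha => rw [map_inv]; exact ha.inv_right

variable (S) in
/-- Trivial-coefficient elements fixing the first two colours pointwise. -/
def fixBoth : Subgroup (Vgrp S) where
  carrier := {v | FixCone colA v ∧ FixCone colB v}
  one_mem' := ⟨fun _ => rfl, fun _ => rfl⟩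
  mul_mem' := fun {a b} ha hb =>
    ⟨fun x => show a.1 (b.1 _) = _ by rw [hb.1 x, ha.1 x],
      fun x => show a.1 (b.1 _) = _ by rw [hb.2 x, ha.2 x]⟩
  inv_mem' := fun {a} ha =>
    ⟨fun x => show (a.1)⁻¹ _ = _ by rw [Equiv.Perm.inv_eq_iff_eq, ha.1 x],
      fun x => show (a.1)⁻¹ _ = _ by rw [Equiv.Perm.inv_eq_iff_eq, ha.2 x]⟩

theorem fixBoth_of_maps {p q : List Bool} {k k' : Vgrp S} (h1 : MapsCone colA p k)
    (h2 : MapsCone colB q k) (h3 : MapsCone colA p k') (h4 : MapsCone colB q k') :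
    k⁻¹ * k' ∈ fixBoth S := by
  refine ⟨fun x => ?_, fun x => ?_⟩
  · show (k.1)⁻¹ (k'.1 _) = _
    rw [h3 x, Equiv.Perm.inv_eq_iff_eq, h1 x]
  · show (k.1)⁻¹ (k'.1 _) = _
    rw [h4 x, Equiv.Perm.inv_eq_iff_eq, h2 x]

/-- A generator placed at two cones does not depend on the placing element. -/
theorem place_indep {M : F.Model} {φ : Vgrp S →* M.P} {i : F.ι}
    (h : ∀ v ∈ fixBoth S, Commute (M.f (FreeGroup.of (Sum.inr i))) (φ v)) {p q : List Bool}
    {k k' : Vgrp S} (h1 : MapsCone colA p k) (h2 : MapsCone colB q k) (h3 : MapsCone colA p k')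
    (h4 : MapsCone colB q k') :
    φ k * M.f (FreeGroup.of (Sum.inr i)) * (φ k)⁻¹ =
      φ k' * M.f (FreeGroup.of (Sum.inr i)) * (φ k')⁻¹ := by
  have e := h _ (fixBoth_of_maps h1 h2 h3 h4)
  rw [show φ k' = φ k * φ (k⁻¹ * k') by rw [← map_mul, mul_inv_cancel_left], mul_inv_rev,
    mul_assoc (φ k) (φ _), ← e.eq]
  group

/-- Eventually the halving identity holds, when it is true. -/
theorem ev_halve (hK : (fixBoth S).FG)
    (hc : ∀ i, ∀ v ∈ fixBoth S, Commute (F.genPerm (.inr i)) v.1)
    (hs : ∀ i (k₀ k₁ : Vgrp S),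
      MapsCone colA (colA ++ [false]) k₀ → MapsCone colB (colB ++ [false]) k₀ →
      MapsCone colA (colA ++ [true]) k₁ → MapsCone colB (colB ++ [true]) k₁ →
      F.genPerm (.inr i) = k₀.1 * F.genPerm (.inr i) * (k₀.1)⁻¹ *
        (k₁.1 * F.genPerm (.inr i) * (k₁.1)⁻¹)) :
    F.Ev fun M => ∀ φ, IsPhi M φ → ∀ i (k₀ k₁ : Vgrp S),
      MapsCone colA (colA ++ [false]) k₀ → MapsCone colB (colB ++ [false]) k₀ →
      MapsCone colA (colA ++ [true]) k₁ → MapsCone colB (colB ++ [true]) k₁ →
      M.f (FreeGroup.of (Sum.inr i)) =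
        φ k₀ * M.f (FreeGroup.of (Sum.inr i)) * (φ k₀)⁻¹ *
          (φ k₁ * M.f (FreeGroup.of (Sum.inr i)) * (φ k₁)⁻¹) := by
  by_cases he : ∃ a b : Vgrp S,
      MapsCone colA (colA ++ [false]) a ∧ MapsCone colB (colB ++ [false]) a ∧
      MapsCone colA (colA ++ [true]) b ∧ MapsCone colB (colB ++ [true]) b
  · obtain ⟨a, b, a1, a2, b1, b2⟩ := he
    have := F.fin_ι
    refine (Ev.all fun i => (Ev.mixed (a := FreeGroup.of (Sum.inr i))
      (b := FreeGroup.of (Sum.inl a) * FreeGroup.of (Sum.inr i) * (FreeGroup.of (Sum.inl a))⁻¹ *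
        (FreeGroup.of (Sum.inl b) * FreeGroup.of (Sum.inr i) * (FreeGroup.of (Sum.inl b))⁻¹))
      ?_).and (ev_commute hK i (hc i))).mono fun M hM φ hφ i k₀ k₁ h1 h2 h3 h4 => ?_
    · simpa [evalMixed] using hs i a b a1 a2 b1 b2
    · obtain ⟨e, c⟩ := hM i
      rw [place_indep (c φ hφ) h1 h2 a1 a2, place_indep (c φ hφ) h3 h4 b1 b2]
      simpa [Frame.mixed] using e φ hφ
  · exact Ev.of_forall fun M φ _ i k₀ k₁ h1 h2 h3 h4 => absurd ⟨k₀, k₁, h1, h2, h3, h4⟩ he

/-- Eventually generators at disjoint cones commute, when this is true. -/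
theorem ev_disj (hK : (fixBoth S).FG)
    (hc : ∀ i, ∀ v ∈ fixBoth S, Commute (F.genPerm (.inr i)) v.1)
    (hs : ∀ i j (k₀ k₁ : Vgrp S),
      MapsCone colA [false, false, false] k₀ → MapsCone colB [false, false, true] k₀ →
      MapsCone colA [false, true, false] k₁ → MapsCone colB [false, true, true] k₁ →
      Commute (k₀.1 * F.genPerm (.inr i) * (k₀.1)⁻¹) (k₁.1 * F.genPerm (.inr j) * (k₁.1)⁻¹)) :
    F.Ev fun M => ∀ φ, IsPhi M φ → ∀ i j (k₀ k₁ : Vgrp S),
      MapsCone colA [false, false, false] k₀ → MapsCone colB [false, false, true] k₀ →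
      MapsCone colA [false, true, false] k₁ → MapsCone colB [false, true, true] k₁ →
      Commute (φ k₀ * M.f (FreeGroup.of (Sum.inr i)) * (φ k₀)⁻¹)
        (φ k₁ * M.f (FreeGroup.of (Sum.inr j)) * (φ k₁)⁻¹) := by
  by_cases he : ∃ a b : Vgrp S,
      MapsCone colA [false, false, false] a ∧ MapsCone colB [false, false, true] a ∧
      MapsCone colA [false, true, false] b ∧ MapsCone colB [false, true, true] b
  · obtain ⟨a, b, a1, a2, b1, b2⟩ := he
    have := F.fin_ι
    refine ((Ev.all fun i => Ev.all fun j => Ev.mixed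
      (a := FreeGroup.of (Sum.inl a) * FreeGroup.of (Sum.inr i) * (FreeGroup.of (Sum.inl a))⁻¹ *
        (FreeGroup.of (Sum.inl b) * FreeGroup.of (Sum.inr j) * (FreeGroup.of (Sum.inl b))⁻¹))
      (b := FreeGroup.of (Sum.inl b) * FreeGroup.of (Sum.inr j) * (FreeGroup.of (Sum.inl b))⁻¹ *
        (FreeGroup.of (Sum.inl a) * FreeGroup.of (Sum.inr i) * (FreeGroup.of (Sum.inl a))⁻¹))
      ?_).and (Ev.all fun i => ev_commute hK i (hc i))).mono
        fun M hM φ hφ i j k₀ k₁ h1 h2 h3 h4 => ?_
    · simpa [evalMixed] using (hs i j a b a1 a2 b1 b2).eq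
    · obtain ⟨e, c⟩ := hM
      rw [place_indep (c i φ hφ) h1 h2 a1 a2, place_indep (c j φ hφ) h3 h4 b1 b2]
      simpa [Frame.mixed, Commute, SemiconjBy] using e i j φ hφ
  · exact Ev.of_forall fun M φ _ i j k₀ k₁ h1 h2 h3 h4 => absurd ⟨k₀, k₁, h1, h2, h3, h4⟩ he

end Frame

end Vale.Agent.P193.Calc
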