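import Vale.Agent.P193.Full.Core.CovComm
import Vale.Agent.P193.Full.Calc.Close

/-! The hypotheses of the map calculus on fields from three inputs: trivial fields on empty sets,
the carrying identity on the predicates, and commutation of the generators with the fields on the
spare cone. The rest needs finitely many true relations only, for any closed field system. -/

open Classical

namespace Vale.Agent.P193.Calc

open scoped commutatorElement

variable {S : Type}

variable (S) in
/-- The elements inside a cone. -/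
def coneSub (u : List Bool) : Subgroup (Vgrp S) where
  carrier := {v | InCone u v}
  one_mem' := fun _ _ => rfl
  mul_mem' := fun {a b} ha hb y hy => by
    show a.1 (b.1 y) = y
    rw [hb y hy, ha y hy]
  inv_mem' := fun {a} ha y hy => by
    show (a.1)⁻¹ y = y
    rw [Equiv.Perm.inv_eq_iff_eq, ha y hy]

variable (S) in
/-- The elements fixing a cone pointwise. -/
def fixSub (u : List Bool) : Subgroup (Vgrp S) where
  carrier := {v | FixCone u v}
  one_mem' := fun _ => rfl
  mul_mem' := fun {a b} ha hb x => by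
    show a.1 (b.1 _) = _
    rw [hb x, ha x]
  inv_mem' := fun {a} ha x => by
    show (a.1)⁻¹ _ = _
    rw [Equiv.Perm.inv_eq_iff_eq, ha x]

/-- Normal generation of a subgroup by its elements inside the spare cone. -/
def NormBy (K : Subgroup (Vgrp S)) (r : List Bool) : Prop :=
  (K : Set (Vgrp S)) ⊆ Subgroup.closure {y : Vgrp S | ∃ k ∈ K, ∃ x, InCone r x ∧ y = k * x * k⁻¹}

variable (S) in
/-- The facts on the trivial-coefficient group that are used. -/
structure VOK : Prop where
  selfC : SelfComm {v : Vgrp S | InCone colC v}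
  fgA : (coneSub S colA).FG
  fgFixA : (fixSub S colA).FG
  fgFixB : (fixSub S colB).FG
  fgBoth : (Frame.fixBoth S).FG
  normA : NormBy (fixSub S colA) colC
  normB : NormBy (fixSub S colB) colC
  normBoth : NormBy (Frame.fixBoth S) colC

namespace Setup

variable {D : Setup S}

/-- Commutation on all predicates and on the full field gives it on every definable set. -/
theorem commOn_def (hE : D.ctx.EmptyTrivial) {z : D.P} {K : Set (Vgrp S)} (hK : SelfComm K)
    (h0 : ∀ v ∈ K, Commute z (D.φ v)) (h1 : ∀ k, ∀ v ∈ K, Commute z (D.fld k v)) {e : Set S}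
    (he : D.Def e) : CommOn z K e := by
  refine commOn_of_base hE hK (c := (Set.univ : Set S)) (Ctx.definable_univ (C := D.ctx))
    (fun v hv' => ?_) (fun k v hv' => ?_) he (Set.subset_univ e)
  · exact (h_univ hE).symm ▸ h0 v hv'
  · exact (congrArg D.h (Set.inter_univ (D.set k))).trans (h_set hE k) ▸ h1 k v hv'

/-- Commutation with the field of a definable set on the stabiliser from commutation on the spare
cone and with a superset. -/
theorem commOn_spread (hE : D.ctx.EmptyTrivial) {z : D.P} {K : Subgroup (Vgrp S)}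
    {r : List Bool} (hnorm : NormBy K r) {c e : Set S} (hc : D.Def c) (he : D.Def e)
    (hec : e ⊆ c) (hzc : ∀ k ∈ K, Commute z (D.h c k))
    (hsp : CommOn z {v | InCone r v} e) : CommOn z (K : Set (Vgrp S)) e := by
  intro v hv'
  refine Subgroup.closure_induction (p := fun w _ => Commute z (D.h e w)) ?_ ?_ ?_ ?_ (hnorm hv')
  · rintro _ ⟨k, hk, x, hx, rfl⟩
    rw [← h_conj_le hE hc he hec]
    exact ((hzc k hk).mul_right (hsp x hx)).mul_right (hzc k hk).inv_right
  · rw [map_one]; exact Commute.one_right z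
  · intro a b _ _ ha hb; rw [map_mul]; exact ha.mul_right hb
  · intro a _ ha; rw [map_inv]; exact ha.inv_right

/-- The generators commute with the fields on the spare cone. -/
def SpareOff (D : Setup S) : Prop :=
  ∀ i k (v : Vgrp S), InCone colC v → Commute (D.G i) (D.fld k v)

/-- The carrying identity on the predicates. -/
def Carried (D : Setup S) : Prop :=
  ∀ i k (v : Vgrp S), InCone colA v →
    D.G i * D.h (D.set k ∩ gdom (D.g i)) v * (D.G i)⁻¹ =
      D.h (D.img i (D.set k)) (vswap colAB * v * vswap colAB)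

end Setup

namespace Frame

variable {F : Frame S}

/-- A chosen word for an element in the field of a predicate. -/
noncomputable def FieldSys.wordOf (K : F.FieldSys) (k : K.κ) (v : Vgrp S) : F.Free :=
  FreeGroup.lift (K.word k) (vgen_surjective (F := F) v).choose

theorem FieldSys.eval_wordOf (K : F.FieldSys) (k : K.κ) (v : Vgrp S) :
    F.eval (K.wordOf k v) = restr (K.set k) v := by
  rw [FieldSys.wordOf, eval_lift_eq (restr (K.set k)) _ (K.eval_word k),
    (vgen_surjective v).choose_spec]

theorem Fields.fld_wordOf {K : F.FieldSys} {M : F.Model} (Φ : Fields K M) (k : K.κ) (v : Vgrp S) :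
    Φ.fld k v = M.f (K.wordOf k v) := by
  rw [FieldSys.wordOf, ← hom_eq_word M (Φ.fld_eq k), (vgen_surjective v).choose_spec]

variable (K : F.FieldSys)

/-- Fields of definable sets are given by words, uniformly in the model. -/
theorem exists_defWord (hp : commutator (Vgrp S) = ⊤) (hav : Avoids (Vgrp S)) {e : Set S}
    (he : K.Def e) (v : Vgrp S) :
    ∃ x : F.Free, F.eval x = restr e v ∧ ∀ (M : F.Model) (Φ : Fields K M),
      (Φ.setup hp hav).ctx.EmptyTrivial → (Φ.setup hp hav).h e v = M.f x := by
  obtain ⟨t, rfl⟩ := he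
  induction t generalizing v with
  | full =>
    refine ⟨word v, ?_, fun M Φ hE => ?_⟩
    · show _ = restr Set.univ v
      rw [eval_word, restr_univ]
    · show (Φ.setup hp hav).h Set.univ v = _
      rw [Setup.h_univ (D := Φ.setup hp hav) hE]; exact Φ.phi.word v
  | var k =>
    refine ⟨K.wordOf k v, K.eval_wordOf k v, fun M Φ hE => ?_⟩
    exact (DFunLike.congr_fun (Setup.h_set (D := Φ.setup hp hav) hE k) v).trans
      (Φ.fld_wordOf k v)
  | inter a b iha ihb =>
    have hv' : v ∈ Subgroup.closure (commutatorSet (Vgrp S)) := by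
      rw [← commutator_eq_closure, hp]; exact Subgroup.mem_top v
    induction hv' using Subgroup.closure_induction with
    | mem y hy =>
      obtain ⟨p, r, rfl⟩ := hy
      obtain ⟨x, hx, hx'⟩ := iha p
      obtain ⟨y, hy, hy'⟩ := ihb r
      refine ⟨⁅x, y⁆, ?_, fun M Φ hE => ?_⟩
      · rw [map_commutatorElement, hx, hy]; exact restr_commutator _ _ p r
      · have := Ctx.field_inter_comm (C := (Φ.setup hp hav).ctx) hE
          ⟨a, Φ.setup_tset hp hav a⟩ ⟨b, Φ.setup_tset hp hav b⟩ p r
        exact this.trans ((congrArg₂ (fun a b : M.P => ⁅a, b⁆) (hx' M Φ hE) (hy' M Φ hE)).trans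
          (map_commutatorElement M.f x y).symm)
    | one => exact ⟨1, by simp, fun M Φ _ => (map_one _).trans (map_one M.f).symm⟩
    | mul p r _ _ hp' hr' =>
      obtain ⟨x, hx, hx'⟩ := hp'
      obtain ⟨y, hy, hy'⟩ := hr'
      exact ⟨x * y, by simp [hx, hy], fun M Φ hE =>
        (map_mul _ p r).trans ((congrArg₂ (fun a b : M.P => a * b) (hx' M Φ hE) (hy' M Φ hE)).trans
          (map_mul M.f x y).symm)⟩
    | inv p _ hp' =>
      obtain ⟨x, hx, hx'⟩ := hp'
      exact ⟨x⁻¹, by simp [hx], fun M Φ hE =>
        (map_inv _ p).trans ((congrArg (fun a : M.P => a⁻¹) (hx' M Φ hE)).trans (map_inv M.f x).symm)⟩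
  | diff a b iha ihb =>
    have hi : ∃ x : F.Free, F.eval x = restr (K.tset a ∩ K.tset b) v ∧
        ∀ (M : F.Model) (Φ : Fields K M), (Φ.setup hp hav).ctx.EmptyTrivial →
          (Φ.setup hp hav).h (K.tset a ∩ K.tset b) v = M.f x := by
      have hv' : v ∈ Subgroup.closure (commutatorSet (Vgrp S)) := by
        rw [← commutator_eq_closure, hp]; exact Subgroup.mem_top v
      induction hv' using Subgroup.closure_induction with
      | mem y hy =>
        obtain ⟨p, r, rfl⟩ := hy
        obtain ⟨x, hx, hx'⟩ := iha p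
        obtain ⟨y, hy, hy'⟩ := ihb r
        refine ⟨⁅x, y⁆, ?_, fun M Φ hE => ?_⟩
        · rw [map_commutatorElement, hx, hy]; exact restr_commutator _ _ p r
        · have := Ctx.field_inter_comm (C := (Φ.setup hp hav).ctx) hE
            ⟨a, Φ.setup_tset hp hav a⟩ ⟨b, Φ.setup_tset hp hav b⟩ p r
          exact this.trans ((congrArg₂ (fun a b : M.P => ⁅a, b⁆) (hx' M Φ hE) (hy' M Φ hE)).trans
            (map_commutatorElement M.f x y).symm)
      | one => exact ⟨1, by simp, fun M Φ _ => (map_one _).trans (map_one M.f).symm⟩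
      | mul p r _ _ hp' hr' =>
        obtain ⟨x, hx, hx'⟩ := hp'
        obtain ⟨y, hy, hy'⟩ := hr'
        exact ⟨x * y, by simp [hx, hy], fun M Φ hE =>
          (map_mul _ p r).trans ((congrArg₂ (fun a b : M.P => a * b) (hx' M Φ hE) (hy' M Φ hE)).trans
            (map_mul M.f x y).symm)⟩
      | inv p _ hp' =>
        obtain ⟨x, hx, hx'⟩ := hp'
        exact ⟨x⁻¹, by simp [hx], fun M Φ hE =>
        (map_inv _ p).trans ((congrArg (fun a : M.P => a⁻¹) (hx' M Φ hE)).trans (map_inv M.f x).symm)⟩
    obtain ⟨x, hx, hx'⟩ := hi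
    obtain ⟨y, hy, hy'⟩ := iha v
    refine ⟨x⁻¹ * y, ?_, fun M Φ hE => ?_⟩
    · show _ = restr (K.tset a \ K.tset b) v
      rw [map_mul, map_inv, hx, hy, restr_split (K.tset a) (K.tset b) v, inv_mul_cancel_left]
    · have := Ctx.field_sdiff (C := (Φ.setup hp hav).ctx) hE
        ⟨a, Φ.setup_tset hp hav a⟩ ⟨b, Φ.setup_tset hp hav b⟩ v
      exact this.trans ((congrArg₂ (fun a b : M.P => a⁻¹ * b) (hx' M Φ hE) (hy' M Φ hE)).trans
        (by simp))

variable {K}

/-- A true commutation of a generator with the field of a definable set on a finitely generated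
subgroup holds eventually. -/
theorem ev_commute_def (hp : commutator (Vgrp S) = ⊤) (hav : Avoids (Vgrp S)) {e : Set S}
    (he : K.Def e) {Kg : Subgroup (Vgrp S)} (hK : Kg.FG) (i : F.ι)
    (h : ∀ v ∈ Kg, Commute (gswap (F.g_pb i) colAB) (restr e v)) :
    F.Ev fun M => ∀ Φ : Fields K M, (Φ.setup hp hav).ctx.EmptyTrivial → ∀ v ∈ Kg,
      Commute ((Φ.setup hp hav).G i) ((Φ.setup hp hav).h e v) := by
  obtain ⟨T, rfl⟩ := hK
  choose x hx hx' using fun t : Vgrp S => exists_defWord K hp hav he t
  refine (Ev.all (β := T) fun t => Ev.rel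
    (a := FreeGroup.of (Sum.inr i) * x t.1) (b := x t.1 * FreeGroup.of (Sum.inr i)) ?_).mono
      fun M hM Φ hE v hv' => ?_
  · simp only [map_mul, eval_inr, hx]
    exact (h t.1 (Subgroup.subset_closure t.2)).eq
  · induction hv' using Subgroup.closure_induction with
    | mem y hy =>
      rw [hx' y M Φ hE]
      show M.f _ * M.f _ = M.f _ * M.f _
      rw [← map_mul, ← map_mul]
      exact hM ⟨y, hy⟩
    | one => rw [map_one]; exact Commute.one_right _
    | mul a c _ _ ha hc => rw [map_mul]; exact ha.mul_right hc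
    | inv a _ ha => rw [map_inv]; exact ha.inv_right

/-- Eventually a generator carries the field of its domain to the field of its range. -/
theorem ev_cov_dom (hp : commutator (Vgrp S) = ⊤) (hav : Avoids (Vgrp S))
    (hfg : (coneSub S colA).FG) (i : F.ι) (hd : K.Def (gdom (F.g i)))
    (hr : K.Def (gran (F.g i))) :
    F.Ev fun M => ∀ Φ : Fields K M, (Φ.setup hp hav).ctx.EmptyTrivial → ∀ v, InCone colA v →
      (Φ.setup hp hav).G i * (Φ.setup hp hav).h (gdom (F.g i)) v *
          ((Φ.setup hp hav).G i)⁻¹ =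
        (Φ.setup hp hav).h (gran (F.g i)) (vswap colAB * v * vswap colAB) := by
  obtain ⟨T, hT⟩ := hfg
  choose x hx hx' using fun t : Vgrp S => exists_defWord K hp hav hd t
  choose y hy hy' using fun t : Vgrp S => exists_defWord K hp hav hr t
  refine (Ev.all (β := T) fun t => Ev.rel
    (a := FreeGroup.of (Sum.inr i) * x t.1 * (FreeGroup.of (Sum.inr i))⁻¹)
    (b := y (vswap colAB * t.1 * vswap colAB)) ?_).mono fun M hM Φ hE v hv' => ?_
  · have ht : InCone colA t.1 :=
      (hT ▸ Subgroup.subset_closure t.2 : t.1 ∈ coneSub S colA)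
    simp only [map_mul, map_inv, eval_inr, hx, hy]
    rw [← map_mul, ← map_mul]
    exact gswap_cov_dom (F.g_pb i) t.1 ht
  · have hm : v ∈ Subgroup.closure (T : Set (Vgrp S)) := hT ▸ hv'
    have hc : vswap (S := S) colAB * v * vswap colAB =
        MulAut.conj (vswap (S := S) colAB) v := by
      rw [MulAut.conj_apply, vswap_inv]
    rw [hc]
    let fd : Vgrp S →* M.P := (Φ.setup hp hav).h (gdom (F.g i))
    let fr : Vgrp S →* M.P := (Φ.setup hp hav).h (gran (F.g i))
    have := MonoidHom.eqOn_closure (s := (T : Set (Vgrp S)))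
      (f := (MulAut.conj (M.f (FreeGroup.of (Sum.inr i)))).toMonoidHom.comp fd)
      (g := fr.comp (MulAut.conj (vswap (S := S) colAB)).toMonoidHom) ?_ hm
    · exact this
    · intro z hz
      show M.f (FreeGroup.of (Sum.inr i)) * fd z * (M.f (FreeGroup.of (Sum.inr i)))⁻¹ =
        fr (vswap colAB * z * (vswap colAB)⁻¹)
      rw [vswap_inv, show fd z = _ from hx' z M Φ hE, show fr _ = _ from hy' _ M Φ hE]
      have := hM ⟨z, hz⟩
      simp only [map_mul, map_inv] at this
      exact this

theorem FieldSys.def_compl {e : Set S} (he : K.Def e) : K.Def eᶜ := by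
  obtain ⟨t, rfl⟩ := he
  exact ⟨.diff .full t, (Set.compl_eq_univ_sdiff _).symm⟩

theorem fixBoth_of_inCone_colC {v : Vgrp S} (h : InCone colC v) : v ∈ fixBoth S :=
  ⟨h.fixCone (by simp [Apart, colA, colC]), h.fixCone (by simp [Apart, colB, colC])⟩

variable (K)

/-- Eventually the hypotheses of the map calculus on fields follow from trivial fields on empty
sets, the carrying identity, and commutation with the fields on the spare cone. -/
theorem ev_fieldBase (hcl : K.Closed) (hV : VOK S) (hp : commutator (Vgrp S) = ⊤)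
    (hav : Avoids (Vgrp S)) :
    F.Ev fun M => ∀ Φ : Fields K M, (Φ.setup hp hav).ctx.EmptyTrivial →
      (Φ.setup hp hav).Carried → (Φ.setup hp hav).SpareOff →
      (Φ.setup hp hav).FieldBase := by
  have : Finite F.ι := F.fin_ι
  have h1 := Ev.all fun i : F.ι => ev_cov_dom hp hav hV.fgA i (hcl.dom i) (hcl.ran i)
  have h2 := Ev.all fun i : F.ι => ev_commute_def hp hav (K.def_compl (hcl.dom i)) hV.fgFixB i
    fun v hv' => gswap_comm_dom (F.g_pb i) disjoint_compl_left hv'
  have h3 := Ev.all fun i : F.ι => ev_commute_def hp hav (K.def_compl (hcl.ran i)) hV.fgFixA i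
    fun v hv' => gswap_comm_ran (F.g_pb i) disjoint_compl_left hv'
  have h4 := F.ev_base_comm_off hV.fgBoth
  refine ((h1.and h2).and (h3.and h4)).mono fun M hM Φ hE hcar hsp => ?_
  obtain ⟨⟨m1, m2⟩, m3, m4⟩ := hM
  let D := Φ.setup hp hav
  have hsp' : ∀ i {e}, D.Def e → Setup.CommOn (D := D) (D.G i) {v | InCone colC v} e := by
    intro i e he
    refine Setup.commOn_def (D := D) hE hV.selfC (fun v hv' => ?_) (fun k => hsp i k) he
    exact m4 Φ.φ Φ.phi i v (fixBoth_of_inCone_colC hv').1 (fixBoth_of_inCone_colC hv').2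
  refine ⟨hE, hcar, fun i => m1 i Φ hE, ?_, ?_, ?_⟩
  · intro i e he hd v hv'
    exact Setup.commOn_spread (D := D) hE hV.normB
      ((Φ.setup_def hp hav _).2 (K.def_compl (hcl.dom i))) he
      (fun x hx hx' => Set.disjoint_left.1 hd hx hx') (m2 i Φ hE) (hsp' i he) v hv'
  · intro i e he hd v hv'
    exact Setup.commOn_spread (D := D) hE hV.normA
      ((Φ.setup_def hp hav _).2 (K.def_compl (hcl.ran i))) he
      (fun x hx hx' => Set.disjoint_left.1 hd hx hx') (m3 i Φ hE) (hsp' i he) v hv'
  · intro i e he v ha hb'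
    refine Setup.commOn_spread (D := D) hE hV.normBoth
      (Ctx.definable_univ (C := D.ctx)) he (Set.subset_univ e) (fun k hk => ?_) (hsp' i he) v
      ⟨ha, hb'⟩
    show Commute _ (D.h Set.univ k)
    rw [Setup.h_univ (D := D) hE]
    exact m4 Φ.φ Φ.phi i k hk.1 hk.2

end Frame

end Vale.Agent.P193.Calc
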