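import Vale.Agent.P193.Full.Calc.Setup

/-! Closure under Boolean operations of the behaviour of a generator on fields: what is checked on
the generating predicates holds on all definable sets. -/

namespace Vale.Agent.P193.Calc

open scoped commutatorElement
open Classical

/-- A set of elements inside the closure of its own commutators. -/
def SelfComm {W : Type*} [Group W] (K : Set W) : Prop :=
  K ⊆ Subgroup.closure {y : W | ∃ a ∈ K, ∃ b ∈ K, y = ⁅a, b⁆}

theorem inter_split {α : Type*} (a b c : Set α) : (a ∩ b) ∩ c = (a ∩ c) ∩ (b ∩ c) := by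
  ext; simp only [Set.mem_inter_iff]; tauto

theorem sdiff_split {α : Type*} (a b c : Set α) : (a \ b) ∩ c = (a ∩ c) \ (b ∩ c) := by
  ext; simp only [Set.mem_inter_iff, Set.mem_sdiff]; tauto

namespace Ctx

variable {W K : Type} [Group W] [Group K] {C : Ctx W K}

theorem definable_inter {s u : Set C.S} (hs : C.Definable s) (hu : C.Definable u) :
    C.Definable (s ∩ u) := by
  obtain ⟨a, rfl⟩ := hs
  obtain ⟨b, rfl⟩ := hu
  exact ⟨.inter a b, rfl⟩

theorem definable_sdiff {s u : Set C.S} (hs : C.Definable s) (hu : C.Definable u) :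
    C.Definable (s \ u) := by
  obtain ⟨a, rfl⟩ := hs
  obtain ⟨b, rfl⟩ := hu
  exact ⟨.diff a b, rfl⟩

theorem definable_univ : C.Definable Set.univ := ⟨.full, rfl⟩

theorem definable_compl {s : Set C.S} (hs : C.Definable s) : C.Definable sᶜ := by
  rw [Set.compl_eq_univ_sdiff]; exact C.definable_sdiff C.definable_univ hs

theorem definable_set (i : C.ι) : C.Definable (C.set i) := ⟨.var i, rfl⟩

theorem field_univ (hE : C.EmptyTrivial) : C.field Set.univ = C.one :=
  C.field_eq hE .full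

theorem field_set (hE : C.EmptyTrivial) (i : C.ι) : C.field (C.set i) = C.x i :=
  C.field_eq hE (.var i)

theorem field_empty (hE : C.EmptyTrivial) : C.field ∅ = 1 := by
  have h : C.tset (.diff .full .full) = ∅ := Set.sdiff_self
  rw [← h, C.field_eq hE]
  exact C.eq_one_of_empty hE _ h

theorem fld_field {s : Set C.S} (hs : C.Definable s) : C.Fld (C.field s) := by
  rw [field, dif_pos hs]; exact C.fld_tfld _

/-- The field of an intersection on a commutator. -/
theorem field_inter_comm (hE : C.EmptyTrivial) {s u : Set C.S} (hs : C.Definable s)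
    (hu : C.Definable u) (v w : W) :
    C.field (s ∩ u) ⁅v, w⁆ = ⁅C.field s v, C.field u w⁆ := by
  obtain ⟨t⟩ := C.compat (C.fld_field hs) (C.fld_field hu)
  rw [C.field_inter hE hs hu, C.meet_eq t, t.a_comm]

/-- The field of a difference. -/
theorem field_sdiff (hE : C.EmptyTrivial) {s u : Set C.S} (hs : C.Definable s)
    (hu : C.Definable u) (v : W) :
    C.field (s \ u) v = (C.field (s ∩ u) v)⁻¹ * C.field s v := by
  obtain ⟨-, -, h⟩ := C.field_union hE (C.definable_inter hs hu) (C.definable_sdiff hs hu)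
    Set.disjoint_sdiff_inter.symm
  rw [eq_inv_mul_iff_mul_eq, ← h, Set.inter_union_sdiff]

end Ctx

namespace Setup

variable {S : Type} {D : Setup S}

theorem h_univ (hE : D.ctx.EmptyTrivial) : D.h Set.univ = D.φ := Ctx.field_univ hE

theorem h_set (hE : D.ctx.EmptyTrivial) (k : D.κ) : D.h (D.set k) = D.fld k :=
  Ctx.field_set hE k

/-- An element commutes with the field of a set on a set of arguments. -/
def CommOn (x : D.P) (K : Set (Vgrp S)) (e : Set S) : Prop :=
  ∀ v ∈ K, Commute x (D.h e v)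

variable (hE : D.ctx.EmptyTrivial)
include hE

theorem CommOn.inter {x : D.P} {K : Set (Vgrp S)} (hK : SelfComm K) {e f : Set S}
    (he : D.Def e) (hf : D.Def f) (ce : CommOn x K e) (cf : CommOn x K f) :
    CommOn x K (e ∩ f) := by
  intro v hv
  refine Subgroup.closure_induction (p := fun w _ => Commute x (D.h (e ∩ f) w)) ?_ ?_ ?_ ?_ (hK hv)
  · rintro _ ⟨a, ha, b, hb, rfl⟩
    show Commute x (D.ctx.field (e ∩ f) ⁅a, b⁆)
    rw [Ctx.field_inter_comm hE he hf, commutatorElement_def]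
    exact (((ce a ha).mul_right (cf b hb)).mul_right (ce a ha).inv_right).mul_right
      (cf b hb).inv_right
  · rw [map_one]; exact Commute.one_right x
  · intro a b _ _ ha hb; rw [map_mul]; exact ha.mul_right hb
  · intro a _ ha; rw [map_inv]; exact ha.inv_right

theorem CommOn.sdiff {x : D.P} {K : Set (Vgrp S)} (hK : SelfComm K) {e f : Set S}
    (he : D.Def e) (hf : D.Def f) (ce : CommOn x K e) (cf : CommOn x K f) :
    CommOn x K (e \ f) := by
  intro v hv
  show Commute x (D.ctx.field (e \ f) v)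
  rw [Ctx.field_sdiff hE he hf]
  exact ((CommOn.inter hE hK he hf ce cf) v hv).inv_right.mul_right (ce v hv)

/-- Commutation on the traces of the predicates on `c` gives it for every definable subset
of `c`. -/
theorem commOn_of_base {x : D.P} {K : Set (Vgrp S)} (hK : SelfComm K) {c : Set S}
    (hc : D.Def c) (h0 : CommOn x K c) (h1 : ∀ k, CommOn x K (D.set k ∩ c)) {e : Set S}
    (he : D.Def e) (hec : e ⊆ c) : CommOn x K e := by
  obtain ⟨t, rfl⟩ := he
  rw [← Set.inter_eq_self_of_subset_left hec]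
  clear hec
  induction t with
  | full => show CommOn x K (Set.univ ∩ c); rw [Set.univ_inter]; exact h0
  | var k => exact h1 k
  | inter a b iha ihb =>
    have e1 : D.ctx.tset (.inter a b) ∩ c = (D.ctx.tset a ∩ c) ∩ (D.ctx.tset b ∩ c) := inter_split _ _ _
    rw [e1]
    exact CommOn.inter hE hK (Ctx.definable_inter ⟨a, rfl⟩ hc) (Ctx.definable_inter ⟨b, rfl⟩ hc)
      iha ihb
  | diff a b iha ihb =>
    have e1 : D.ctx.tset (.diff a b) ∩ c = (D.ctx.tset a ∩ c) \ (D.ctx.tset b ∩ c) := sdiff_split _ _ _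
    rw [e1]
    exact CommOn.sdiff hE hK (Ctx.definable_inter ⟨a, rfl⟩ hc) (Ctx.definable_inter ⟨b, rfl⟩ hc)
      iha ihb

omit hE

theorem img_inter (i : D.ι) (e f : Set S) : D.img i (e ∩ f) = D.img i e ∩ D.img i f := by
  ext t
  constructor
  · rintro ⟨s, ⟨h1, h2⟩, hg⟩; exact ⟨⟨s, h1, hg⟩, ⟨s, h2, hg⟩⟩
  · rintro ⟨⟨s, h1, hg⟩, ⟨s', h2, hg'⟩⟩
    obtain rfl := (D.g_pb i).2 s s' t hg hg'
    exact ⟨s, ⟨h1, h2⟩, hg⟩

theorem img_sdiff (i : D.ι) (e f : Set S) : D.img i (e \ f) = D.img i e \ D.img i f := by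
  ext t
  constructor
  · rintro ⟨s, ⟨h1, h2⟩, hg⟩
    refine ⟨⟨s, h1, hg⟩, ?_⟩
    rintro ⟨s', h3, hg'⟩
    exact h2 ((D.g_pb i).2 s s' t hg hg' ▸ h3)
  · rintro ⟨⟨s, h1, hg⟩, h2⟩
    exact ⟨s, ⟨h1, fun h3 => h2 ⟨s, h3, hg⟩⟩, hg⟩

theorem img_dom (i : D.ι) : D.img i (gdom (D.g i)) = gran (D.g i) := by
  ext t
  exact ⟨fun ⟨s, _, hg⟩ => ⟨s, hg⟩, fun ⟨s, hg⟩ => ⟨s, ⟨t, hg⟩, hg⟩⟩

theorem img_inter_dom (i : D.ι) (e : Set S) : D.img i (e ∩ gdom (D.g i)) = D.img i e := by
  ext t
  exact ⟨fun ⟨s, hs, hg⟩ => ⟨s, hs.1, hg⟩, fun ⟨s, hs, hg⟩ => ⟨s, ⟨hs, t, hg⟩, hg⟩⟩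

theorem img_univ (i : D.ι) : D.img i Set.univ = gran (D.g i) := by
  rw [← img_inter_dom, Set.univ_inter, img_dom]

theorem def_img_term (i : D.ι) (hran : D.Def (gran (D.g i)))
    (himg : ∀ k, D.Def (D.img i (D.set k))) {e : Set S} (he : D.Def e) : D.Def (D.img i e) := by
  obtain ⟨t, rfl⟩ := he
  induction t with
  | full => show D.Def (D.img i Set.univ); rwa [img_univ]
  | var k => exact himg k
  | inter a b iha ihb =>
    exact (fun A B (hA : D.Def (D.img i A)) (hB : D.Def (D.img i B)) =>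
      show D.Def (D.img i (A ∩ B)) by rw [img_inter]; exact Ctx.definable_inter hA hB) _ _ iha ihb
  | diff a b iha ihb =>
    exact (fun A B (hA : D.Def (D.img i A)) (hB : D.Def (D.img i B)) =>
      show D.Def (D.img i (A \ B)) by rw [img_sdiff]; exact Ctx.definable_sdiff hA hB) _ _ iha ihb

/-- The element `x` carries the field of `e` to the field of `e'`, twisting the argument by `τ`. -/
def Carries (x : D.P) (K : Set (Vgrp S)) (τ : Vgrp S → Vgrp S) (e e' : Set S) : Prop :=
  ∀ v ∈ K, x * D.h e v * x⁻¹ = D.h e' (τ v)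

include hE

theorem Carries.inter {x : D.P} {K : Set (Vgrp S)} (hK : SelfComm K) (τ : Vgrp S →* Vgrp S)
    {e f e' f' : Set S} (he : D.Def e) (hf : D.Def f) (he' : D.Def e') (hf' : D.Def f')
    (ce : Carries x K τ e e') (cf : Carries x K τ f f') :
    Carries x K τ (e ∩ f) (e' ∩ f') := by
  intro v hv
  have := MonoidHom.eqOn_closure (s := {y : Vgrp S | ∃ a ∈ K, ∃ b ∈ K, y = ⁅a, b⁆})
    (f := (MulAut.conj x).toMonoidHom.comp (D.h (e ∩ f))) (g := (D.h (e' ∩ f')).comp τ) ?_ (hK hv)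
  · simpa using this
  · rintro _ ⟨a, ha, b, hb, rfl⟩
    show MulAut.conj x (D.ctx.field (e ∩ f) ⁅a, b⁆) = D.ctx.field (e' ∩ f') (τ ⁅a, b⁆)
    rw [Ctx.field_inter_comm hE he hf, map_commutatorElement, map_commutatorElement,
      Ctx.field_inter_comm hE he' hf', MulAut.conj_apply, MulAut.conj_apply]
    show ⁅x * D.h e a * x⁻¹, x * D.h f b * x⁻¹⁆ = _
    rw [ce a ha, cf b hb]
    rfl

theorem Carries.sdiff {x : D.P} {K : Set (Vgrp S)} (hK : SelfComm K) (τ : Vgrp S →* Vgrp S)
    {e f e' f' : Set S} (he : D.Def e) (hf : D.Def f) (he' : D.Def e') (hf' : D.Def f')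
    (ce : Carries x K τ e e') (cf : Carries x K τ f f') :
    Carries x K τ (e \ f) (e' \ f') := by
  intro v hv
  show x * D.ctx.field (e \ f) v * x⁻¹ = D.ctx.field (e' \ f') (τ v)
  rw [Ctx.field_sdiff hE he hf, Ctx.field_sdiff hE he' hf']
  have h1 := Carries.inter hE hK τ he hf he' hf' ce cf v hv
  have h2 := ce v hv
  calc x * ((D.h (e ∩ f) v)⁻¹ * D.h e v) * x⁻¹
      = (x * D.h (e ∩ f) v * x⁻¹)⁻¹ * (x * D.h e v * x⁻¹) := by group
    _ = _ := by rw [h1, h2]; rfl

/-- A generator carrying the traces of all predicates on its domain carries every definable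
subset of its domain to its image. -/
theorem carries_of_base {x : D.P} {K : Set (Vgrp S)} (hK : SelfComm K) (τ : Vgrp S →* Vgrp S)
    (i : D.ι) (hdom : D.Def (gdom (D.g i))) (hran : D.Def (gran (D.g i)))
    (himg : ∀ k, D.Def (D.img i (D.set k)))
    (h0 : Carries x K τ (gdom (D.g i)) (gran (D.g i)))
    (h1 : ∀ k, Carries x K τ (D.set k ∩ gdom (D.g i)) (D.img i (D.set k))) {e : Set S}
    (he : D.Def e) : Carries x K τ (e ∩ gdom (D.g i)) (D.img i e) := by
  obtain ⟨t, rfl⟩ := he
  induction t with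
  | full =>
    show Carries x K τ (Set.univ ∩ _) (D.img i Set.univ)
    rw [Set.univ_inter, img_univ]; exact h0
  | var k => exact h1 k
  | inter a b iha ihb =>
    exact (fun A B (hA : D.Def A) (hB : D.Def B)
        (cA : Carries x K τ (A ∩ gdom (D.g i)) (D.img i A))
        (cB : Carries x K τ (B ∩ gdom (D.g i)) (D.img i B)) =>
      show Carries x K τ ((A ∩ B) ∩ gdom (D.g i)) (D.img i (A ∩ B)) by
        rw [inter_split, img_inter]
        exact Carries.inter hE hK τ (Ctx.definable_inter hA hdom) (Ctx.definable_inter hB hdom)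
          (def_img_term i hran himg hA) (def_img_term i hran himg hB) cA cB)
      _ _ ⟨a, rfl⟩ ⟨b, rfl⟩ iha ihb
  | diff a b iha ihb =>
    exact (fun A B (hA : D.Def A) (hB : D.Def B)
        (cA : Carries x K τ (A ∩ gdom (D.g i)) (D.img i A))
        (cB : Carries x K τ (B ∩ gdom (D.g i)) (D.img i B)) =>
      show Carries x K τ ((A \ B) ∩ gdom (D.g i)) (D.img i (A \ B)) by
        rw [sdiff_split, img_sdiff]
        exact Carries.sdiff hE hK τ (Ctx.definable_inter hA hdom) (Ctx.definable_inter hB hdom)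
          (def_img_term i hran himg hA) (def_img_term i hran himg hB) cA cB)
      _ _ ⟨a, rfl⟩ ⟨b, rfl⟩ iha ihb

end Setup

end Vale.Agent.P193.Calc
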