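import Vale.Agent.P193.Full.Core.CovMoves.Assembly

/-! The carrying part `Core.Inst.carriedPart` is proved in `CovMoves/Assembly`. -/
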