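import Vale.Agent.P193.Full.Core.CovBase
import Vale.Agent.P193.Full.Core.Inst.Transport

/-! Carrying by generators from diagonal words: if the predicates have good fields, the generators
commute with them on the spare cone, and on every piece of its domain where a generator is a
diagonal permutation it carries good fields as conjugation by that word does. -/

open Classical

namespace Vale.Agent.P193.Calc

open scoped commutatorElement

variable {S : Type}

theorem selfComm_inCone (hp : commutator (Vgrp S) = ⊤) (p : List Bool) :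
    SelfComm {v : Vgrp S | InCone p v} := by
  intro v hv'
  obtain ⟨u, rfl⟩ := InCone.exists_lpV hv'
  have hu : u ∈ Subgroup.closure (commutatorSet (Vgrp S)) := by
    rw [← commutator_eq_closure, hp]; exact Subgroup.mem_top u
  induction hu using Subgroup.closure_induction with
  | mem y hy =>
    obtain ⟨a, b, rfl⟩ := hy
    exact Subgroup.subset_closure
      ⟨_, inCone_lpV p a, _, inCone_lpV p b, map_commutatorElement (lpV p) a b⟩
  | one => rw [map_one]; exact one_mem _
  | mul a b _ _ ha hb =>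
    rw [map_mul]; exact mul_mem (ha (inCone_lpV _ _)) (hb (inCone_lpV _ _))
  | inv a _ ha => rw [map_inv]; exact inv_mem (ha (inCone_lpV _ _))

namespace Setup

variable {D : Setup S}

/-- The fields of definable sets land in a subgroup on a cone when those of the predicates do. -/
theorem mem_def (hE : D.ctx.EmptyTrivial) {N : Subgroup D.P} {K : Set (Vgrp S)} (hK : SelfComm K)
    (h0 : ∀ v ∈ K, D.φ v ∈ N) (h1 : ∀ k, ∀ v ∈ K, D.fld k v ∈ N) {e : Set S} (he : D.Def e) :
    ∀ v ∈ K, D.h e v ∈ N := by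
  have inter : ∀ {a b : Set S}, D.Def a → D.Def b → (∀ v ∈ K, D.h a v ∈ N) →
      (∀ v ∈ K, D.h b v ∈ N) → ∀ v ∈ K, D.h (a ∩ b) v ∈ N := by
    intro a b ha hb la lb v hv'
    have : Subgroup.closure {y : Vgrp S | ∃ p ∈ K, ∃ r ∈ K, y = ⁅p, r⁆} ≤
        N.comap (D.h (a ∩ b)) := by
      rw [Subgroup.closure_le]
      rintro _ ⟨p, hp', r, hr, rfl⟩
      show D.ctx.field (a ∩ b) ⁅p, r⁆ ∈ N
      rw [Ctx.field_inter_comm hE ha hb, commutatorElement_def]
      exact mul_mem (mul_mem (mul_mem (la p hp') (lb r hr)) (inv_mem (la p hp')))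
        (inv_mem (lb r hr))
    exact this (hK hv')
  obtain ⟨t, rfl⟩ := he
  induction t with
  | full =>
    intro v hv'
    exact (h_univ hE).symm ▸ h0 v hv'
  | var k =>
    intro v hv'
    exact (h_set hE k).symm ▸ h1 k v hv'
  | inter a b iha ihb => exact inter ⟨a, rfl⟩ ⟨b, rfl⟩ iha ihb
  | diff a b iha ihb =>
    intro v hv'
    show D.ctx.field (D.ctx.tset a \ D.ctx.tset b) v ∈ N
    rw [Ctx.field_sdiff hE ⟨a, rfl⟩ ⟨b, rfl⟩]
    exact mul_mem (inv_mem (inter ⟨a, rfl⟩ ⟨b, rfl⟩ iha ihb v hv')) (iha v hv')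

end Setup

namespace Frame

variable {F : Frame S}

theorem lp_eq_halves {x : F.Free} {τ : Equiv.Perm S} (hx : F.IsDiag x τ) :
    F.eval x = lp (hv S) [false] (F.eval x) * lp (hv S) [true] (F.eval x) := by
  ext1 ⟨f, s⟩
  obtain ⟨⟨b, g⟩, rfl⟩ := cnSplit.surjective f
  rw [show ((cnSplit (b, g), s) : Sp S) = (hv S).pre [b] (g, s) from rfl, hx.pre,
    Equiv.Perm.mul_apply]
  cases b with
  | false =>
    rw [lp_out [true] (F.eval x) fun ⟨_, e⟩ => halvesApart.incomp _ _ e, lp_pre]
  | true =>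
    rw [lp_pre, lp_out [false] (F.eval x) fun ⟨_, e⟩ => halvesApart.symm.incomp _ _ e]

theorem commute_lp {p : List Bool} {z : Equiv.Perm (Sp S)}
    (hz : ∀ y, z ((hv S).pre p y) = (hv S).pre p y) (σ : Equiv.Perm (Sp S)) :
    Commute z (lp (hv S) p σ) := by
  refine Equiv.Perm.Disjoint.commute fun y => ?_
  by_cases h : ∃ x, y = (hv S).pre p x
  · obtain ⟨x, rfl⟩ := h; exact Or.inl (hz x)
  · exact Or.inr (lp_out p σ h)

/-- A word fixing the second half commutes eventually with the elements of the second half. -/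
theorem ev_commute_right (z : F.Free)
    (hz : ∀ y, F.eval z ((hv S).pre [true] y) = (hv S).pre [true] y) :
    F.Ev fun M => ∀ n ∈ rightSub F M, Commute (M.f z) n := by
  have : Finite F.ι := F.fin_ι
  refine (Ev.all fun g : Fin F.m ⊕ F.ι => Ev.rel (a := z * lpWord [true] (FreeGroup.of g))
    (b := lpWord [true] (FreeGroup.of g) * z) ?_).mono fun M hM n hn => ?_
  · simp only [map_mul, eval_lpWord]
    exact (commute_lp hz _).eq
  · obtain ⟨y, rfl⟩ := hn
    induction y using FreeGroup.induction_on with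
    | C1 => rw [map_one]; exact Commute.one_right _
    | of g =>
      show M.f z * M.f (lpWord [true] (FreeGroup.of g)) = M.f (lpWord [true] (FreeGroup.of g)) * M.f z
      rw [← map_mul, ← map_mul]; exact hM g
    | inv_of g hg => rw [map_inv]; exact hg.inv_right
    | mul a b ha hb => rw [map_mul]; exact ha.mul_right hb

theorem gswap_fix_right {g : Set (S × S)} (hg : IsPB g) (y : Sp S) :
    gswap hg colAB ((hv S).pre [true] y) = (hv S).pre [true] y :=
  gswap_fix_out colAB (fun _ => (apart_heads (by decide) _ _ : Apart [true] colA).incomp _ _)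
    (fun _ => (apart_heads (by decide) _ _ : Apart [true] colB).incomp _ _)

variable (F) in
/-- Eventually the generators commute with good fields on the spare cone. -/
theorem ev_spare :
    F.Ev fun M => ∀ φ f : Vgrp S →* M.P, Good M φ f → ∀ i v, InCone colC v →
      Commute (M.f (FreeGroup.of (Sum.inr i))) (f v) := by
  have : Finite F.ι := F.fin_ι
  refine (Ev.all fun i : F.ι => ev_commute_right (FreeGroup.of (Sum.inr i)) fun y => ?_).mono
    fun M hM φ f hf i v hv' => hM i _ (hf.right v (hv'.mono ⟨[false], rfl⟩))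
  rw [eval_inr]; exact gswap_fix_right _ y

/-- On a piece of its domain where it is a diagonal permutation a generator carries good fields
as conjugation by that word does. -/
theorem ev_carry {i : F.ι} {x : F.Free} {τ : Equiv.Perm S} (hx : F.IsDiag x τ) {D : Set S}
    (hD : ∀ s ∈ D, (s, τ s) ∈ F.g i) (w : Fin F.m → F.Free)
    (hw : ∀ j, F.eval (w j) = restr D (F.vgen j)) :
    F.Ev fun M => ∀ φ f Ψ : Vgrp S →* M.P, IsPhi M φ → (∀ j, Ψ (F.vgen j) = M.f (w j)) →
      Good M φ f → Le f Ψ → ∀ v, InCone colA v →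
        M.f (FreeGroup.of (Sum.inr i)) * f v * (M.f (FreeGroup.of (Sum.inr i)))⁻¹ =
          M.f x * f (vswap colAB * v * vswap colAB) * (M.f x)⁻¹ := by
  obtain ⟨u, hu⟩ := vgen_surjective (F := F) (vswap colAC)
  obtain ⟨z, hzdef⟩ : ∃ z : F.Free, z = (lpWord [false] x)⁻¹ * word (vswap colAB) *
      FreeGroup.of (Sum.inr i) := ⟨_, rfl⟩
  have hz1 : ∀ y, F.eval z ((hv S).pre [true] y) = (hv S).pre [true] y := fun y => by
    simp only [hzdef, map_mul, map_inv, eval_lpWord, eval_word, eval_inr, Equiv.Perm.mul_apply]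
    rw [gswap_fix_right, vswap_fix colAB
      (fun _ => (apart_heads (by decide) _ _ : Apart [true] colA).incomp _ _)
      (fun _ => (apart_heads (by decide) _ _ : Apart [true] colB).incomp _ _),
      Equiv.Perm.inv_eq_iff_eq, lp_out]
    exact fun ⟨_, e⟩ => halvesApart.symm.incomp _ _ e
  have hzA : ∀ f s, s ∈ D → F.eval z ((hv S).pre colA (f, s)) = (hv S).pre colA (f, s) :=
    fun f s hs => by
    simp only [hzdef, map_mul, map_inv, eval_lpWord, eval_word, eval_inr, Equiv.Perm.mul_apply]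
    rw [gswap_fwd colAB (hD s hs), vswap_bwd, Equiv.Perm.inv_eq_iff_eq]
    have e : ∀ t : S, (hv S).pre colA (f, t) = (hv S).pre [false] ((hv S).pre [false] (f, t)) :=
      fun t => by rw [← pre_append]; rfl
    rw [e, e, lp_pre, hx.pre, hx]
  refine ((((Ev.rel (F := F) (a := z * FreeGroup.lift w u) (b := FreeGroup.lift w u * z) ?_).and
    (ev_commute_right z hz1)).and
    (Ev.rel (F := F) (a := x) (b := lpWord [false] x * lpWord [true] x) ?_)).and (ev_move hx)).mono
      ?_
  · simp only [map_mul, eval_lift_eq _ _ hw, hu]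
    refine (Equiv.Perm.Disjoint.commute fun y => ?_).eq
    by_cases hy : y.2 ∈ D
    swap; exact Or.inr (restr_out hy _)
    rw [restr_in hy]
    by_cases hA : ∃ q, y = (hv S).pre colA q
    · obtain ⟨⟨f, s⟩, rfl⟩ := hA
      rw [hv_pre_snd] at hy
      exact Or.inl (hzA f s hy)
    by_cases hC : ∃ q, y = (hv S).pre colC q
    · obtain ⟨q, rfl⟩ := hC
      refine Or.inl ?_
      have e : (hv S).pre colC q = (hv S).pre [true] ((hv S).pre [false] q) := by
        rw [← pre_append]; rfl
      rw [e]; exact hz1 _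
    · exact Or.inr (vswap_fix colAC (fun q e => hA ⟨q, e⟩) fun q e => hC ⟨q, e⟩)
  · simp only [map_mul, eval_lpWord]
    exact lp_eq_halves hx
  rintro M ⟨⟨⟨hza, hzr⟩, hxe⟩, hmove⟩ φ f Ψ hφ hΨ hf hle v hv'
  have hA : Ψ (vswap colAC) = M.f (FreeGroup.lift w u) := by
    rw [← hom_eq_word M hΨ, hu]
  have hv1 : InCone colC ((vswap colAC : Vgrp S) * v * (vswap colAC)⁻¹) :=
    hv'.conj fun y => vswap_fwd colAC y
  have cz : Commute (M.f z) (f v) := by
    have e : f v = Ψ (vswap colAC) * f (vswap colAC * v * (vswap colAC)⁻¹) *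
        (Ψ (vswap colAC))⁻¹ := by
      rw [hle, vswap_inv]
      congr 1
      have e2 : (vswap (S := S) colAC) * vswap colAC = 1 := by
        nth_rw 1 [← vswap_inv colAC]; exact inv_mul_cancel _
      calc v = (vswap colAC * vswap colAC) * v * (vswap colAC * vswap colAC) := by simp [e2]
        _ = _ := by group
    rw [e, hA]
    have c1 : Commute (M.f z) (M.f (FreeGroup.lift w u)) := by
      show M.f z * M.f _ = M.f _ * M.f z
      rw [← map_mul, ← map_mul]; exact hza
    exact (c1.mul_right (hzr _ (hf.right _ (hv1.mono ⟨[false], rfl⟩)))).mul_right c1.inv_right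
  have c0 : Commute (M.f (lpWord [true] x)) (f v) :=
    (hf.left v (hv'.mono ⟨[false], rfl⟩) _ ⟨x, rfl⟩).symm
  have eG : M.f (FreeGroup.of (Sum.inr i)) =
      (φ (vswap colAB))⁻¹ * M.f (lpWord [false] x) * M.f z := by
    rw [hφ.word (vswap colAB), hzdef]; simp [mul_assoc]
  have eX : M.f x = M.f (lpWord [false] x) * M.f (lpWord [true] x) := by rw [hxe, map_mul]
  have e0 : M.f (FreeGroup.of (Sum.inr i)) * f v * (M.f (FreeGroup.of (Sum.inr i)))⁻¹ =
      (φ (vswap colAB))⁻¹ * (M.f x * f v * (M.f x)⁻¹) * φ (vswap colAB) := by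
    rw [eG, eX]
    simp only [mul_inv_rev, inv_inv, mul_assoc]
    rw [← mul_assoc (M.f z) (f v), cz.eq, mul_assoc (f v) (M.f z), mul_inv_cancel_left,
      ← mul_assoc (M.f (lpWord [true] x)) (f v), c0.eq, mul_assoc (f v) (M.f (lpWord [true] x)),
      mul_inv_cancel_left]
  rw [e0]
  have cx : Commute (M.f x) (φ (vswap colAB)) := (hmove φ hφ).1 _
  have e1 : f (vswap colAB * v * vswap colAB) =
      (φ (vswap colAB))⁻¹ * f v * φ (vswap colAB) := by
    have h := hf.le (vswap colAB)⁻¹ v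
    rw [map_inv, inv_inv, inv_inv, vswap_inv] at h
    exact h.symm
  rw [e1]
  simp only [mul_assoc]
  rw [← mul_assoc (φ (vswap colAB))⁻¹ (M.f x), ← cx.inv_right.eq, mul_assoc (M.f x),
    cx.inv_left.eq]

/-- Good fields of the predicates make the fields of all definable sets good. -/
theorem good_def {K : F.FieldSys} {M : F.Model} (Φ : Fields K M)
    (hp : commutator (Vgrp S) = ⊤) (hav : Avoids (Vgrp S))
    (hE : (Φ.setup hp hav).ctx.EmptyTrivial) (h0 : Good M Φ.φ Φ.φ)
    (h1 : ∀ k, Good M Φ.φ (Φ.fld k)) {e : Set S} (he : (Φ.setup hp hav).Def e) :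
    Good M Φ.φ ((Φ.setup hp hav).h e) := by
  let D := Φ.setup hp hav
  refine ⟨fun k v => ?_, fun v hv' n hn => ?_, fun v hv' => ?_⟩
  · have := Setup.h_conj_le (D := D) hE (Ctx.definable_univ (C := D.ctx)) he (Set.subset_univ e) k v
    have hu : (D.h Set.univ : Vgrp S →* M.P) = Φ.φ := Setup.h_univ (D := D) hE
    rw [← hu]
    exact this
  · have hc := Setup.commOn_def (D := D) (z := n) hE (selfComm_inCone hp [false])
      (fun u hu => (h0.left u hu n hn).symm) (fun k u hu => ((h1 k).left u hu n hn).symm) he v hv'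
    exact hc.symm
  · exact Setup.mem_def (D := D) hE (selfComm_inCone hp [true]) (fun u hu => h0.right u hu)
      (fun k u hu => (h1 k).right u hu) he v hv'

/-- Eventually good fields of the predicates give commutation on the spare cone. -/
theorem ev_spareOff (K : F.FieldSys) (hp : commutator (Vgrp S) = ⊤) (hav : Avoids (Vgrp S)) :
    F.Ev fun M => ∀ Φ : Fields K M, (∀ k, Good M Φ.φ (Φ.fld k)) →
      (Φ.setup hp hav).SpareOff :=
  (ev_spare F).mono fun _ hM Φ hg i k v hv' => hM Φ.φ _ (hg k) i v hv'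

/-- A piece of the domain of a generator on which it is a diagonal permutation. -/
structure Piece (K : F.FieldSys) (i : F.ι) where
  dom : Set S
  word : F.Free
  perm : Equiv.Perm S
  diag : F.IsDiag word perm
  graph : ∀ s ∈ dom, (s, perm s) ∈ F.g i
  isDef : K.Def dom

/-- Finitely many disjoint pieces covering the domain. -/
structure Pieces (K : F.FieldSys) (i : F.ι) where
  l : List (Piece K i)
  disj : l.Pairwise fun a b => Disjoint a.dom b.dom
  cover : gdom (F.g i) = {s | ∃ a ∈ l, s ∈ a.dom}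

/-- The field of a set in a model. -/
noncomputable def Fields.setField {K : F.FieldSys} {M : F.Model} (Φ : Fields K M)
    (hp : commutator (Vgrp S) = ⊤) (hav : Avoids (Vgrp S)) (e : Set S) : Vgrp S →* M.P :=
  (Φ.setup hp hav).h e

/-- The diagonal words move the traces of the predicates on the pieces to their images. -/
def Fields.Moves {K : F.FieldSys} {M : F.Model} (Φ : Fields K M)
    (hp : commutator (Vgrp S) = ⊤) (hav : Avoids (Vgrp S)) (p : ∀ i, Pieces K i) : Prop :=
  ∀ i, ∀ a ∈ (p i).l, ∀ (k : K.κ) (v : Vgrp S),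
    M.f a.word * Φ.setField hp hav (K.set k ∩ a.dom) v * (M.f a.word)⁻¹ =
      Φ.setField hp hav {t | ∃ s ∈ K.set k ∩ a.dom, (s, t) ∈ F.g i} v

/-- Eventually good fields that the diagonal words move to their images satisfy the carrying
identity. -/
theorem ev_carried (K : F.FieldSys) (hcl : K.Closed) (hp : commutator (Vgrp S) = ⊤)
    (hav : Avoids (Vgrp S)) (p : ∀ i, Pieces K i) :
    F.Ev fun M => ∀ Φ : Fields K M, (Φ.setup hp hav).ctx.EmptyTrivial →
      Good M Φ.φ Φ.φ → (∀ k, Good M Φ.φ (Φ.fld k)) → Φ.Moves hp hav p →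
      (Φ.setup hp hav).Carried := by
  have : Finite F.ι := F.fin_ι
  choose x hx hx' using fun (i : F.ι) (n : Fin (p i).l.length) (j : Fin F.m) =>
    exists_defWord K hp hav ((p i).l[n]).isDef (F.vgen j)
  have h1 := Ev.all fun i : F.ι => Ev.all fun n : Fin (p i).l.length =>
    ev_carry ((p i).l[n]).diag ((p i).l[n]).graph (x i n) (hx i n)
  refine h1.mono fun M hM Φ hE hφg hg hmv => ?_
  let D := Φ.setup hp hav
  intro i k v hv'
  have hk : D.Def (K.set k) := Ctx.definable_set (C := D.ctx) k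
  have hran : D.Def (gran (D.g i)) := (Φ.setup_def hp hav _).2 (hcl.ran i)
  have himg : ∀ {e}, D.Def e → D.Def (D.img i e) := fun he =>
    Setup.def_img_term (D := D) i hran (fun k => (Φ.setup_def hp hav _).2 (hcl.img i k)) he
  have one : ∀ a ∈ (p i).l, D.Def (K.set k ∩ a.dom) ∧
      D.G i * D.h (K.set k ∩ a.dom) v * (D.G i)⁻¹ =
        D.h (D.img i (K.set k ∩ a.dom)) (vswap colAB * v * vswap colAB) := by
    intro a ha
    obtain ⟨n, hn, rfl⟩ := List.getElem_of_mem ha
    have hd : D.Def ((p i).l[n]).dom := (Φ.setup_def hp hav _).2 ((p i).l[n]).isDef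
    have he := Ctx.definable_inter (C := D.ctx) hk hd
    refine ⟨he, ?_⟩
    let f : Vgrp S →* M.P := D.h (K.set k ∩ ((p i).l[n]).dom)
    let Ψ : Vgrp S →* M.P := D.h ((p i).l[n]).dom
    have hle : Le f Ψ := fun a b => Setup.h_conj_le (D := D) hE hd he Set.inter_subset_right a b
    have key := hM i ⟨n, hn⟩ Φ.φ f Ψ Φ.phi (fun j => hx' i ⟨n, hn⟩ j M Φ hE)
      (good_def Φ hp hav hE hφg hg he) hle v hv'
    exact key.trans (hmv i _ (List.getElem_mem hn) k _)
  have key : ∀ l : List (Piece K i), l.Pairwise (fun a b => Disjoint a.dom b.dom) →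
      (∀ a ∈ l, a ∈ (p i).l) →
      D.Def (K.set k ∩ {s | ∃ a ∈ l, s ∈ a.dom}) ∧
      D.G i * D.h (K.set k ∩ {s | ∃ a ∈ l, s ∈ a.dom}) v * (D.G i)⁻¹ =
        D.h (D.img i (K.set k ∩ {s | ∃ a ∈ l, s ∈ a.dom})) (vswap colAB * v * vswap colAB) := by
    intro l hl hsub
    induction l with
    | nil =>
      have e : K.set k ∩ {s | ∃ a ∈ ([] : List (Piece K i)), s ∈ a.dom} = (∅ : Set S) :=
        Set.eq_empty_of_forall_notMem fun s ⟨_, a, ha, _⟩ => List.not_mem_nil ha
      have e' : D.img i (∅ : Set S) = ∅ :=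
        Set.eq_empty_of_forall_notMem fun t ⟨s, hs, _⟩ => hs.elim
      have h0 : D.h (∅ : Set S) = 1 := Ctx.field_empty (C := D.ctx) hE
      rw [e, e', h0]
      refine ⟨⟨.diff .full .full, Set.sdiff_self⟩, ?_⟩
      simp
    | cons a l ih =>
      obtain ⟨ha, hl'⟩ := List.pairwise_cons.1 hl
      obtain ⟨d1, e1⟩ := one a (hsub a List.mem_cons_self)
      obtain ⟨d2, e2⟩ := ih hl' fun b hb => hsub b (List.mem_cons_of_mem _ hb)
      have e : K.set k ∩ {s | ∃ b ∈ a :: l, s ∈ b.dom} =
          (K.set k ∩ a.dom) ∪ (K.set k ∩ {s | ∃ b ∈ l, s ∈ b.dom}) := by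
        ext s
        simp only [Set.mem_inter_iff, Set.mem_union, Set.mem_ofPred_eq, List.mem_cons,
          exists_eq_or_imp]
        tauto
      have hd : Disjoint (K.set k ∩ a.dom) (K.set k ∩ {s | ∃ b ∈ l, s ∈ b.dom}) :=
        Set.disjoint_left.2 fun s ⟨_, h1⟩ ⟨_, b, hb, h2⟩ =>
          Set.disjoint_left.1 (ha b hb) h1 h2
      have hi : Disjoint (D.img i (K.set k ∩ a.dom))
          (D.img i (K.set k ∩ {s | ∃ b ∈ l, s ∈ b.dom})) :=
        Set.disjoint_left.2 fun t ⟨s, hs, hg'⟩ ⟨s', hs', hg''⟩ =>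
          Set.disjoint_left.1 hd hs ((D.g_pb i).2 s' s t hg'' hg' ▸ hs')
      have ei : D.img i ((K.set k ∩ a.dom) ∪ (K.set k ∩ {s | ∃ b ∈ l, s ∈ b.dom})) =
          D.img i (K.set k ∩ a.dom) ∪ D.img i (K.set k ∩ {s | ∃ b ∈ l, s ∈ b.dom}) := by
        ext t
        simp only [Setup.img, Set.mem_union, Set.mem_ofPred_eq]
        constructor
        · rintro ⟨s, hs | hs, hg'⟩
          exacts [Or.inl ⟨s, hs, hg'⟩, Or.inr ⟨s, hs, hg'⟩]
        · rintro (⟨s, hs, hg'⟩ | ⟨s, hs, hg'⟩)
          exacts [⟨s, Or.inl hs, hg'⟩, ⟨s, Or.inr hs, hg'⟩]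
      obtain ⟨du, -, hu⟩ := Ctx.field_union (C := D.ctx) hE d1 d2 hd
      obtain ⟨-, -, hu'⟩ := Ctx.field_union (C := D.ctx) hE (himg d1) (himg d2) hi
      rw [e, ei]
      refine ⟨du, ?_⟩
      show D.G i * D.ctx.field _ v * (D.G i)⁻¹ = D.ctx.field _ _
      refine ((congrArg (fun z : D.P => D.G i * z * (D.G i)⁻¹) (hu v)).trans ?_).trans (hu' _).symm
      refine Eq.trans ?_ (congrArg₂ (fun a b : D.P => a * b) e1 e2)
      show D.G i * (_ * _) * (D.G i)⁻¹ = D.G i * _ * (D.G i)⁻¹ * (D.G i * _ * (D.G i)⁻¹)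
      simp [mul_assoc]
      rfl
  obtain ⟨-, e⟩ := key (p i).l (p i).disj fun a ha => ha
  rw [← (p i).cover] at e
  have ei : D.img i (K.set k ∩ gdom (D.g i)) = D.img i (K.set k) :=
    Setup.img_inter_dom (D := D) i (K.set k)
  rw [show D.img i (K.set k ∩ gdom (F.g i)) = D.img i (K.set k) from ei] at e
  exact e

end Frame

end Vale.Agent.P193.Calc
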