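import Vale.Agent.P193.Full.Main
import Vale.Agent.P193.Full.Calc.VOK
import Vale.Agent.P193.Full.Core.CovCarry
import Vale.Agent.P193.Full.Core.Inst.Unique

/-! The calculus of the core instance from its five component statements. -/

namespace Vale.Agent.P193

open Calc Vale.Agent.P193.Core

namespace Core.Inst

variable (d : Data) [DecidableEq d.M.A]

/-- Domains, ranges and images of the predicates are definable. -/
def ClosedPart : Prop :=
  ∀ (hG : Good d) (F : Calc.Frame (Point d)) (hF : IsCore F), (coreSys hG hF).Closed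

/-- The fields of the predicates are eventually pairwise compatible. -/
def CompatPart : Prop :=
  ∀ (_hG : Good d) (F : Calc.Frame (Point d)) (_hF : IsCore F),
    F.Ev fun M => ∀ A B : Kappa d, Compat (phi M) (kfld M A) (kfld M B)

/-- Empty definable sets eventually have trivial fields. -/
def EmptyPart : Prop :=
  ∀ (hG : Good d) (F : Calc.Frame (Point d)) (hF : IsCore F)
    (hp : commutator (Vgrp (Point d)) = ⊤) (hav : Avoids (Vgrp (Point d))),
    F.Ev fun M => ∀ Φ : Frame.Fields (coreSys hG hF) M, (Φ.setup hp hav).ctx.EmptyTrivial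

/-- Eventually the generators carry the fields of the predicates to those of the images. -/
def CarriedPart : Prop :=
  ∀ (hG : Good d) (F : Calc.Frame (Point d)) (hF : IsCore F)
    (hp : commutator (Vgrp (Point d)) = ⊤) (hav : Avoids (Vgrp (Point d))),
    F.Ev fun M => ∀ Φ : Frame.Fields (coreSys hG hF) M,
      (Φ.setup hp hav).ctx.EmptyTrivial → (Φ.setup hp hav).Carried

/-- Eventually the loops of the setup hold. -/
def LoopsPart : Prop :=
  ∀ (hG : Good d) (F : Calc.Frame (Point d)) (hF : IsCore F)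
    (hp : commutator (Vgrp (Point d)) = ⊤) (hav : Avoids (Vgrp (Point d))),
    F.Ev fun M => ∀ Φ : Frame.Fields (coreSys hG hF) M,
      (Φ.setup hp hav).Base → (Φ.setup hp hav).Loops

variable {d}

/-- The carrying identity, once the diagonal words move the traces of the predicates on some
pieces to their images. -/
theorem ev_carried_of_moves (hG : Good d) {F : Calc.Frame (Point d)} (hF : IsCore F)
    (hcl : (coreSys hG hF).Closed) (hp : commutator (Vgrp (Point d)) = ⊤)
    (hav : Avoids (Vgrp (Point d))) (p : ∀ i, Frame.Pieces (coreSys hG hF) i)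
    (h : F.Ev fun M => ∀ Φ : Frame.Fields (coreSys hG hF) M,
      (Φ.setup hp hav).ctx.EmptyTrivial → Φ.Moves hp hav p) :
    F.Ev fun M => ∀ Φ : Frame.Fields (coreSys hG hF) M,
      (Φ.setup hp hav).ctx.EmptyTrivial → (Φ.setup hp hav).Carried :=
  (((ev_fields_good hG hF).and (Frame.ev_carried (coreSys hG hF) hcl hp hav p)).and h).mono
    fun _ ⟨⟨hg, hc⟩, hm⟩ Φ hE => hc Φ hE (hg Φ).2.2.1 (hg Φ).2.2.2 (hm Φ hE)

/-- The hypotheses of the map calculus hold eventually, given the five parts. -/
theorem ev_coreCalculus [Nonempty (Point d)] (hG : Good d) {F : Calc.Frame (Point d)}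
    (hF : IsCore F) (hC : ClosedPart d) (hK : CompatPart d) (hE : EmptyPart d)
    (hV : CarriedPart d) (hL : LoopsPart d) :
    F.Ev (Frame.Calculus (coreSys hG hF) vgrp_perfect vgrp_avoids) := by
  have hcl := hC hG F hF
  have hinv : ∀ i, ∃ j, F.g j = ginv (F.g i) := fun i => by
    have h : F.g i ∈ genSet d := hF ▸ ⟨i, rfl⟩
    have h' : ginv (F.g i) ∈ Set.range F.g := by rw [hF]; exact genSet_ginv h
    exact h'
  refine Frame.ev_calculus fixBoth_fg hinv _ hcl vgrp_perfect vgrp_avoids
    (ev_fields_of_compat hG hF (hK hG F hF)) ?_ (hL hG F hF _ _)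
  refine ((((ev_fields_good hG hF).and (Frame.ev_spareOff (coreSys hG hF) vgrp_perfect vgrp_avoids)).and
    ((hE hG F hF vgrp_perfect vgrp_avoids).and (hV hG F hF vgrp_perfect vgrp_avoids))).and
    (Frame.ev_fieldBase _ hcl vok vgrp_perfect vgrp_avoids)).mono ?_
  rintro M ⟨⟨⟨hg, hs⟩, he, hv⟩, hb⟩ Φ -
  exact hb Φ (he Φ) (hv Φ (he Φ)) (hs Φ (hg Φ).2.2.2)

end Core.Inst

/-- The calculus of the core instance from its parts. -/
theorem coreCalculus_of
    (hC : ∀ (d : Data) [DecidableEq d.M.A], Inst.ClosedPart d)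
    (hK : ∀ (d : Data) [DecidableEq d.M.A], Inst.CompatPart d)
    (hE : ∀ (d : Data) [DecidableEq d.M.A], Inst.EmptyPart d)
    (hV : ∀ (d : Data) [DecidableEq d.M.A], Inst.CarriedPart d)
    (hL : ∀ (d : Data) [DecidableEq d.M.A], Inst.LoopsPart d) : CoreCalculus := by
  intro d _ hG F hF
  have : Nonempty (Point d) := ⟨Orbit.base₀ d⟩
  exact ⟨vgrp_perfect, vgrp_avoids,
    Inst.ev_coreCalculus hG hF (hC d) (hK d) (hE d) (hV d) (hL d)⟩

end Vale.Agent.P193
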