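import Vale.Agent.P193.Full.Core.Loops.Part
import Vale.Agent.P193.Full.Core.Inst.ClosedPart
import Vale.Agent.P193.Full.Core.Inst.CompatDone
import Vale.Agent.P193.Full.Core.CarriedPart

/-! The calculus of the core instance: closure, compatibility, loops and the carrying identity are
proved; the emptiness part is the last input. -/

namespace Vale.Agent.P193

open Calc Vale.Agent.P193.Core

/-- The calculus of the core instance from the emptiness part. -/
theorem coreCalculus_of_empty
    (hE : ∀ (d : Data) [DecidableEq d.M.A], Inst.EmptyPart d) : CoreCalculus :=
  coreCalculus_of (fun d _ => Inst.closedPart d) (fun d _ => Inst.compatPart (d := d)) hE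
    (fun d _ => Inst.carriedPart d) fun d _ => Inst.loopsPart d

/-- Boone and Higman's statement from the emptiness part. -/
theorem booneHigman_of_empty
    (hE : ∀ (d : Data) [DecidableEq d.M.A], Inst.EmptyPart d) : BooneHigman :=
  booneHigman_main (coreCalculus_of_empty hE)

end Vale.Agent.P193
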