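import Mathlib.GroupTheory.FreeGroup.Reduce

/-! Cancellation in free groups against positive words. -/

namespace Vale.Agent.P193.Core

open FreeGroup

set_option linter.unusedSectionVars false

variable {A : Type} [DecidableEq A]

/-- A positive word. -/
def pos (l : List A) : List (A × Bool) := l.map fun a => (a, true)

/-- An inverted positive word. -/
def neg (l : List A) : List (A × Bool) := (l.reverse).map fun a => (a, false)

theorem pos_isReduced (l : List A) : IsReduced (pos l) := by
  unfold pos IsReduced
  induction l with
  | nil => simp
  | cons a t ih => cases t with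
    | nil => simp
    | cons b t => simp_all

theorem neg_isReduced (l : List A) : IsReduced (neg l) := by
  unfold neg IsReduced
  induction l.reverse with
  | nil => simp
  | cons a t ih => cases t with
    | nil => simp
    | cons b t => simp_all

theorem neg_concat (l : List A) (a : A) : neg (l ++ [a]) = (a, false) :: neg l := by
  simp [neg]

theorem mk_pos_inv (l : List A) : (mk (pos l))⁻¹ = mk (neg l) := by
  rw [inv_mk]
  congr 1
  induction l with
  | nil => rfl
  | cons a t ih => simp [pos, neg, invRev] at *

/-- Multiplying a reduced word by the inverse of a positive word cancels a common end. -/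
theorem toWord_mul_pos_inv (L : List (A × Bool)) (hL : IsReduced L) (P : List A) :
    ∃ L₁ P₁ S, L = L₁ ++ pos S ∧ P = P₁ ++ S ∧ (mk L * (mk (pos P))⁻¹).toWord = L₁ ++ neg P₁ ∧
      IsReduced (L₁ ++ neg P₁) := by
  induction P using List.reverseRecOn generalizing L with
  | nil =>
    refine ⟨L, [], [], by simp [pos], rfl, ?_, by simpa [neg] using hL⟩
    have : (mk (pos ([] : List A)))⁻¹ = 1 := by simp [pos, ← one_eq_mk]
    rw [this, mul_one, toWord_mk, hL.reduce_eq]
    simp [neg]
  | append_singleton P a ih =>
    rcases List.eq_nil_or_concat L with rfl | ⟨L', x, rfl⟩
    · refine ⟨[], P ++ [a], [], by simp [pos], by simp, ?_, by simpa using neg_isReduced _⟩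
      rw [mk_pos_inv, ← one_eq_mk, one_mul, toWord_mk, (neg_isReduced _).reduce_eq]
      simp
    · rw [List.concat_eq_append] at *
      by_cases hx : x = (a, true)
      · subst hx
        have hL' : IsReduced L' := List.IsChain.left_of_append hL
        obtain ⟨L₁, P₁, S, e1, e2, e3, e4⟩ := ih L' hL'
        refine ⟨L₁, P₁, S ++ [a], by simp [e1, pos], by simp [e2], ?_, e4⟩
        rw [← e3]
        congr 1
        have h1 : mk (L' ++ [(a, true)]) = mk L' * mk [(a, true)] := by rw [mul_mk]
        have h2 : mk (pos (P ++ [a])) = mk (pos P) * mk [(a, true)] := by
          rw [mul_mk]; simp [pos]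
        rw [h1, h2, mul_inv_rev, mul_assoc, mul_inv_cancel_left]
      · refine ⟨L' ++ [x], P ++ [a], [], by simp [pos], by simp, ?_, ?_⟩
        all_goals
          have hr : IsReduced ((L' ++ [x]) ++ neg (P ++ [a])) := by
              have hn : neg (P ++ [a]) = (a, false) :: neg P := neg_concat P a
              refine List.isChain_append.mpr ⟨hL, neg_isReduced _, ?_⟩
              intro p hp q hq
              simp only [List.getLast?_append, List.getLast?_singleton, Option.mem_def,
                hn, List.head?_cons] at hp hq
              cases hq
              simp at hp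
              subst hp
              obtain ⟨x1, x2⟩ := x
              intro h
              simp at h
              subst h
              cases x2 <;> simp_all
        · rw [mk_pos_inv, mul_mk, toWord_mk, hr.reduce_eq]
        · exact hr

end Vale.Agent.P193.Core
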