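import Vale.Agent.P193.Full.Core.CovClosure

/-! Commutation of an element with the fields of all definable sets from two finite facts and
locality: a field is local if on the first colour it lands in a fixed corner subgroup. An element
commuting with the corner moved to the spare colour, and with the field of a superset, commutes
with the field on the whole stabiliser. -/

namespace Vale.Agent.P193.Calc

open scoped commutatorElement
open Classical

namespace Setup

variable {S : Type} {D : Setup S}

/-- On the first colour the field lands in the corner. -/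
def LocalAt (Crn : Subgroup D.P) (e : Set S) : Prop :=
  ∀ v, InCone colA v → D.h e v ∈ Crn

variable (hE : D.ctx.EmptyTrivial)
include hE

theorem LocalAt.inter {Crn : Subgroup D.P} (hA : SelfComm {v : Vgrp S | InCone colA v})
    {e f : Set S} (he : D.Def e) (hf : D.Def f) (le : LocalAt Crn e) (lf : LocalAt Crn f) :
    LocalAt Crn (e ∩ f) := by
  intro v hv
  have : Subgroup.closure {y : Vgrp S | ∃ a ∈ {v : Vgrp S | InCone colA v},
      ∃ b ∈ {v : Vgrp S | InCone colA v}, y = ⁅a, b⁆} ≤ Crn.comap (D.h (e ∩ f)) := by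
    rw [Subgroup.closure_le]
    rintro _ ⟨a, ha, b, hb, rfl⟩
    show D.ctx.field (e ∩ f) ⁅a, b⁆ ∈ Crn
    rw [Ctx.field_inter_comm hE he hf, commutatorElement_def]
    exact mul_mem (mul_mem (mul_mem (le a ha) (lf b hb)) (inv_mem (le a ha))) (inv_mem (lf b hb))
  exact this (hA hv)

theorem LocalAt.sdiff {Crn : Subgroup D.P} (hA : SelfComm {v : Vgrp S | InCone colA v})
    {e f : Set S} (he : D.Def e) (hf : D.Def f) (le : LocalAt Crn e) (lf : LocalAt Crn f) :
    LocalAt Crn (e \ f) := by
  intro v hv
  show D.ctx.field (e \ f) v ∈ Crn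
  rw [Ctx.field_sdiff hE he hf]
  exact mul_mem (inv_mem (LocalAt.inter hE hA he hf le lf v hv)) (le v hv)

/-- All definable sets are local when the predicates and the full set are. -/
theorem localAt_def {Crn : Subgroup D.P} (hA : SelfComm {v : Vgrp S | InCone colA v})
    (h1 : ∀ v, InCone colA v → D.φ v ∈ Crn) (hk : ∀ k, LocalAt Crn (D.set k)) {e : Set S}
    (he : D.Def e) : LocalAt Crn e := by
  obtain ⟨t, rfl⟩ := he
  induction t with
  | full =>
    show LocalAt Crn Set.univ
    intro v hv
    rw [h_univ hE]; exact h1 v hv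
  | var k => exact hk k
  | inter a b iha ihb => exact LocalAt.inter hE hA ⟨a, rfl⟩ ⟨b, rfl⟩ iha ihb
  | diff a b iha ihb => exact LocalAt.sdiff hE hA ⟨a, rfl⟩ ⟨b, rfl⟩ iha ihb

/-- The field of a set is moved by the field of a superset as by the full group. -/
theorem h_conj_le {c e : Set S} (hc : D.Def c) (he : D.Def e) (hec : e ⊆ c) (k x : Vgrp S) :
    D.h c k * D.h e x * (D.h c k)⁻¹ = D.h e (k * x * k⁻¹) := by
  obtain ⟨-, hd, hu⟩ := D.ctx.field_union hE he (Ctx.definable_sdiff hc he) disjoint_sdiff_self_right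
  have hu' : ∀ v, D.h c v = D.h e v * D.h (c \ e) v := fun v =>
    (congrArg (fun t => D.h t v) (Set.union_sdiff_cancel hec)).symm.trans (hu v)
  rw [hu', map_mul, map_mul, map_inv, mul_inv_rev,
    mul_assoc (D.h e k) (D.h (c \ e) k) (D.h e x), show D.h (c \ e) k * D.h e x = D.h e x * D.h (c \ e) k from (hd x k).symm.eq]
  group

/-- The agreement lemma: `z` commutes with the field of `e` on the stabiliser `K` if it commutes
with the corner moved by `s` and with the field of a superset `c` of `e` on `K`, and `K` is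
normally generated by the elements inside the spare cone `r`. -/
theorem commOn_of_local {Crn : Subgroup D.P} {z : D.P} {K : Subgroup (Vgrp S)}
    {s : Vgrp S} {r : List Bool} (hnorm : (K : Set (Vgrp S)) ⊆
      Subgroup.closure {y : Vgrp S | ∃ k ∈ K, ∃ x, InCone r x ∧ y = k * x * k⁻¹})
    (hs : ∀ x, InCone r x → InCone colA (s⁻¹ * x * s))
    (hz : ∀ y ∈ Crn, Commute z (D.φ s * y * (D.φ s)⁻¹)) {c e : Set S} (hc : D.Def c)
    (he : D.Def e) (hec : e ⊆ c) (hzc : ∀ k ∈ K, Commute z (D.h c k)) (le : LocalAt Crn e) :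
    CommOn z (K : Set (Vgrp S)) e := by
  intro v hv
  refine Subgroup.closure_induction (p := fun w _ => Commute z (D.h e w)) ?_ ?_ ?_ ?_ (hnorm hv)
  · rintro _ ⟨k, hk, x, hx, rfl⟩
    have hx' : Commute z (D.h e x) := by
      have h := h_conj_le hE (c := Set.univ) Ctx.definable_univ he (Set.subset_univ e) s (s⁻¹ * x * s)
      rw [h_univ hE, show s * (s⁻¹ * x * s) * s⁻¹ = x by group] at h
      rw [← h]
      exact hz _ (le _ (hs x hx))
    rw [← h_conj_le hE hc he hec]
    exact ((hzc k hk).mul_right hx').mul_right (hzc k hk).inv_right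
  · rw [map_one]; exact Commute.one_right z
  · intro a b _ _ ha hb; rw [map_mul]; exact ha.mul_right hb
  · intro a _ ha; rw [map_inv]; exact ha.inv_right

omit hE in
/-- Two elements agreeing in this sense carry the field in the same way. -/
theorem conj_eq_of_commOn {x y : D.P} {K : Set (Vgrp S)} {e : Set S}
    (h : CommOn (y⁻¹ * x) K e) {v : Vgrp S} (hv : v ∈ K) :
    x * D.h e v * x⁻¹ = y * D.h e v * y⁻¹ := by
  calc x * D.h e v * x⁻¹ = y * ((y⁻¹ * x) * D.h e v) * x⁻¹ := by group
    _ = y * (D.h e v * (y⁻¹ * x)) * x⁻¹ := by rw [(h v hv).eq]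
    _ = _ := by group

end Setup

end Vale.Agent.P193.Calc
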