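import Vale.Agent.P193.Full.Core.CovCarry
import Vale.Agent.P193.Full.Core.Inst.Words

/-! Pieces for idempotent generators and for inverse generators, and their moving identities. -/

open Classical

namespace Vale.Agent.P193.Calc.Frame

variable {S : Type} {F : Frame S} {K : F.FieldSys}

/-- Images of definable sets under a generator are definable. -/
theorem FieldSys.Closed.img_def (hcl : K.Closed) (i : F.ι) {e : Set S} (he : K.Def e) :
    K.Def {t | ∃ s ∈ e, (s, t) ∈ F.g i} := by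
  obtain ⟨t, rfl⟩ := he
  induction t with
  | full =>
    have : {t | ∃ s ∈ K.tset .full, (s, t) ∈ F.g i} = gran (F.g i) := by
      ext t
      exact ⟨fun ⟨s, _, h⟩ => ⟨s, h⟩, fun ⟨s, h⟩ => ⟨s, trivial, h⟩⟩
    rw [this]; exact hcl.ran i
  | var k => exact hcl.img i k
  | inter a b iha ihb =>
    obtain ⟨u, hu⟩ := iha
    obtain ⟨w, hw⟩ := ihb
    refine ⟨.inter u w, ?_⟩
    show K.tset u ∩ K.tset w = _
    rw [hu, hw]
    ext t
    constructor
    · rintro ⟨⟨s, h1, hg⟩, ⟨s', h2, hg'⟩⟩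
      obtain rfl := (F.g_pb i).2 s s' t hg hg'
      exact ⟨s, ⟨h1, h2⟩, hg⟩
    · rintro ⟨s, ⟨h1, h2⟩, hg⟩
      exact ⟨⟨s, h1, hg⟩, ⟨s, h2, hg⟩⟩
  | diff a b iha ihb =>
    obtain ⟨u, hu⟩ := iha
    obtain ⟨w, hw⟩ := ihb
    refine ⟨.diff u w, ?_⟩
    show K.tset u \ K.tset w = _
    rw [hu, hw]
    ext t
    constructor
    · rintro ⟨⟨s, h1, hg⟩, h2⟩
      exact ⟨s, ⟨h1, fun h3 => h2 ⟨s, h3, hg⟩⟩, hg⟩
    · rintro ⟨s, ⟨h1, h2⟩, hg⟩
      refine ⟨⟨s, h1, hg⟩, ?_⟩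
      rintro ⟨s', h3, hg'⟩
      exact h2 ((F.g_pb i).2 s' s t hg' hg ▸ h3)

/-- The moving identity at one generator. -/
def Fields.MovesAt {M : F.Model} (Φ : Fields K M) (hp : commutator (Vgrp S) = ⊤)
    (hav : Avoids (Vgrp S)) {i : F.ι} (p : Pieces K i) : Prop :=
  ∀ a ∈ p.l, ∀ (k : K.κ) (v : Vgrp S),
    M.f a.word * Φ.setField hp hav (K.set k ∩ a.dom) v * (M.f a.word)⁻¹ =
      Φ.setField hp hav {t | ∃ s ∈ K.set k ∩ a.dom, (s, t) ∈ F.g i} v

theorem Fields.moves_iff {M : F.Model} (Φ : Fields K M) (hp : commutator (Vgrp S) = ⊤)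
    (hav : Avoids (Vgrp S)) (p : ∀ i, Pieces K i) :
    Φ.Moves hp hav p ↔ ∀ i, Φ.MovesAt hp hav (p i) := Iff.rfl

/-- An idempotent generator is one piece with the empty word. -/
noncomputable def Pieces.idem {i : F.ι} {e : Set S} (h : F.g i = gid e) (he : K.Def e) :
    Pieces K i where
  l := [{ dom := e, word := 1, perm := 1, diag := isDiag_one
          graph := fun s hs => h ▸ ⟨rfl, hs⟩, isDef := he }]
  disj := List.pairwise_singleton _ _
  cover := by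
    refine (congrArg gdom h).trans ?_
    ext s
    constructor
    · rintro ⟨t, -, hs⟩; exact ⟨_, List.mem_singleton.2 rfl, hs⟩
    · rintro ⟨a, ha, hs⟩
      rw [List.mem_singleton.1 ha] at hs
      exact ⟨s, rfl, hs⟩

theorem Fields.movesAt_idem {M : F.Model} (Φ : Fields K M) (hp : commutator (Vgrp S) = ⊤)
    (hav : Avoids (Vgrp S)) {i : F.ι} {e : Set S} (h : F.g i = gid e) (he : K.Def e) :
    Φ.MovesAt hp hav (Pieces.idem h he) := by
  intro a ha k v
  obtain rfl := List.mem_singleton.1 ha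
  have e1 : {t | ∃ s ∈ K.set k ∩ e, (s, t) ∈ F.g i} = K.set k ∩ e := by
    ext t
    rw [h]
    exact ⟨fun ⟨s, hs, hst, _⟩ => (show s = t from hst) ▸ hs, fun ht => ⟨t, ht, rfl, ht.2⟩⟩
  show M.f 1 * _ * (M.f 1)⁻¹ = Φ.setField hp hav {t | ∃ s ∈ K.set k ∩ e, (s, t) ∈ F.g i} v
  rw [e1, map_one, one_mul, inv_one, mul_one]

/-- The pieces of an inverse generator are the images of the pieces. -/
noncomputable def Pieces.inverse (hcl : K.Closed) {i j : F.ι} (h : F.g j = ginv (F.g i))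
    (p : Pieces K i) : Pieces K j where
  l := p.l.map fun a =>
    { dom := {t | ∃ s ∈ a.dom, (s, t) ∈ F.g i}
      word := a.word⁻¹
      perm := a.perm⁻¹
      diag := a.diag.inv
      graph := fun t ⟨s, hs, hst⟩ => by
        obtain rfl := (F.g_pb i).1 s t (a.perm s) hst (a.graph s hs)
        rw [h, Equiv.Perm.inv_def, Equiv.symm_apply_apply]
        exact a.graph s hs
      isDef := hcl.img_def i a.isDef }
  disj := by
    rw [List.pairwise_map]
    refine p.disj.imp fun {a b} hab => Set.disjoint_left.2 ?_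
    rintro t ⟨s, hs, hst⟩ ⟨s', hs', hst'⟩
    exact Set.disjoint_left.1 hab hs ((F.g_pb i).2 s' s t hst' hst ▸ hs')
  cover := by
    refine (congrArg gdom h).trans ?_
    ext t
    constructor
    · rintro ⟨s, hst⟩
      obtain ⟨a, ha, hs⟩ : s ∈ {s | ∃ a ∈ p.l, s ∈ a.dom} := p.cover ▸ ⟨t, hst⟩
      exact ⟨_, List.mem_map_of_mem ha, s, hs, hst⟩
    · rintro ⟨b, hb, ht⟩
      obtain ⟨a, -, rfl⟩ := List.mem_map.1 hb
      obtain ⟨s, -, hst⟩ := ht
      exact ⟨s, hst⟩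

/-- Moving identities pass from the predicates to all definable subsets of a piece. -/
theorem Fields.movesAt_def {M : F.Model} (Φ : Fields K M) (hp : commutator (Vgrp S) = ⊤)
    (hav : Avoids (Vgrp S)) (hE : (Φ.setup hp hav).ctx.EmptyTrivial) (hcl : K.Closed) {i : F.ι}
    {p : Pieces K i} (h : Φ.MovesAt hp hav p) {a : Piece K i} (ha : a ∈ p.l)
    (h0 : ∀ v, M.f a.word * Φ.setField hp hav a.dom v * (M.f a.word)⁻¹ =
      Φ.setField hp hav {t | ∃ s ∈ a.dom, (s, t) ∈ F.g i} v)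
    {e : Set S} (he : K.Def e) (v : Vgrp S) :
    M.f a.word * Φ.setField hp hav (e ∩ a.dom) v * (M.f a.word)⁻¹ =
      Φ.setField hp hav {t | ∃ s ∈ e ∩ a.dom, (s, t) ∈ F.g i} v := by
  let D := Φ.setup hp hav
  let τ : Vgrp S →* Vgrp S := MonoidHom.id _
  have hK : SelfComm (Set.univ : Set (Vgrp S)) := fun u _ => by
    have : u ∈ Subgroup.closure (commutatorSet (Vgrp S)) := by
      rw [← commutator_eq_closure, hp]; exact Subgroup.mem_top u
    refine Subgroup.closure_mono ?_ this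
    rintro y ⟨b, c, rfl⟩
    exact ⟨b, trivial, c, trivial, rfl⟩
  have hdef : ∀ {s}, K.Def s → D.Def s := fun hs => (Φ.setup_def hp hav _).2 hs
  have himg : ∀ {s}, K.Def s → K.Def {t | ∃ x ∈ s, (x, t) ∈ F.g i} := fun hs => hcl.img_def i hs
  have inter : ∀ {s}, K.Def s → K.Def (s ∩ a.dom) := fun {s} ⟨t, ht⟩ => by
    obtain ⟨u, hu⟩ := a.isDef
    exact ⟨.inter t u, by rw [← ht, ← hu]; rfl⟩
  obtain ⟨t, rfl⟩ := he
  suffices Setup.Carries (D := D) (M.f a.word) Set.univ τ (K.tset t ∩ a.dom)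
      {u | ∃ s ∈ K.tset t ∩ a.dom, (s, u) ∈ F.g i} from this v trivial
  induction t with
  | full =>
    intro w _
    show M.f a.word * Φ.setField hp hav (Set.univ ∩ a.dom) w * (M.f a.word)⁻¹ =
      Φ.setField hp hav {u | ∃ s ∈ Set.univ ∩ a.dom, (s, u) ∈ F.g i} w
    rw [Set.univ_inter]
    exact h0 w
  | var k => intro w _; exact h a ha k w
  | inter x y ihx ihy =>
    have hx : K.Def (K.tset x) := ⟨x, rfl⟩
    have hy : K.Def (K.tset y) := ⟨y, rfl⟩
    have := Setup.Carries.inter (D := D) hE hK τ (hdef (inter hx)) (hdef (inter hy))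
      (hdef (himg (inter hx))) (hdef (himg (inter hy))) ihx ihy
    have e1 : K.tset (.inter x y) ∩ a.dom = (K.tset x ∩ a.dom) ∩ (K.tset y ∩ a.dom) :=
      inter_split _ _ _
    rw [e1]
    rw [show {u | ∃ s ∈ (K.tset x ∩ a.dom) ∩ (K.tset y ∩ a.dom), (s, u) ∈ F.g i} =
      {u | ∃ s ∈ K.tset x ∩ a.dom, (s, u) ∈ F.g i} ∩
        {u | ∃ s ∈ K.tset y ∩ a.dom, (s, u) ∈ F.g i} from
      Setup.img_inter (D := D) i _ _]
    exact this
  | diff x y ihx ihy =>
    have hx : K.Def (K.tset x) := ⟨x, rfl⟩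
    have hy : K.Def (K.tset y) := ⟨y, rfl⟩
    have := Setup.Carries.sdiff (D := D) hE hK τ (hdef (inter hx)) (hdef (inter hy))
      (hdef (himg (inter hx))) (hdef (himg (inter hy))) ihx ihy
    have e1 : K.tset (.diff x y) ∩ a.dom = (K.tset x ∩ a.dom) \ (K.tset y ∩ a.dom) :=
      sdiff_split _ _ _
    rw [e1]
    rw [show {u | ∃ s ∈ (K.tset x ∩ a.dom) \ (K.tset y ∩ a.dom), (s, u) ∈ F.g i} =
      {u | ∃ s ∈ K.tset x ∩ a.dom, (s, u) ∈ F.g i} \
        {u | ∃ s ∈ K.tset y ∩ a.dom, (s, u) ∈ F.g i} from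
      Setup.img_sdiff (D := D) i _ _]
    exact this

/-- The inverse generator satisfies the moving identity when the generator does. -/
theorem Fields.movesAt_inverse {M : F.Model} (Φ : Fields K M) (hp : commutator (Vgrp S) = ⊤)
    (hav : Avoids (Vgrp S)) (hE : (Φ.setup hp hav).ctx.EmptyTrivial) (hcl : K.Closed)
    {i j : F.ι} (hij : F.g j = ginv (F.g i)) (hji : F.g i = ginv (F.g j)) {p : Pieces K i}
    (h : Φ.MovesAt hp hav p)
    (h0 : ∀ a ∈ p.l, ∀ v, M.f a.word * Φ.setField hp hav a.dom v * (M.f a.word)⁻¹ =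
      Φ.setField hp hav {t | ∃ s ∈ a.dom, (s, t) ∈ F.g i} v) :
    Φ.MovesAt hp hav (Pieces.inverse hcl hij p) := by
  intro b hb k v
  obtain ⟨a, ha, rfl⟩ := List.mem_map.1 hb
  show M.f a.word⁻¹ *
      Φ.setField hp hav (K.set k ∩ {t | ∃ s ∈ a.dom, (s, t) ∈ F.g i}) v * (M.f a.word⁻¹)⁻¹ =
    Φ.setField hp hav
      {t | ∃ s ∈ K.set k ∩ {t | ∃ s ∈ a.dom, (s, t) ∈ F.g i}, (s, t) ∈ F.g j} v
  have hb' : K.Def {t | ∃ s ∈ K.set k, (s, t) ∈ F.g j} := hcl.img j k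
  have key := Φ.movesAt_def hp hav hE hcl h ha (h0 a ha) hb' v
  have e1 : {t | ∃ s ∈ K.set k, (s, t) ∈ F.g j} ∩ a.dom =
      {t | ∃ s ∈ K.set k ∩ {t | ∃ s ∈ a.dom, (s, t) ∈ F.g i}, (s, t) ∈ F.g j} := by
    ext s
    constructor
    · rintro ⟨⟨t, ht, hts⟩, hs⟩
      have hts' : (s, t) ∈ F.g i := by rw [hji]; exact hts
      exact ⟨t, ⟨ht, s, hs, hts'⟩, hts⟩
    · rintro ⟨t, ⟨ht, s', hs', hst'⟩, hts⟩
      have hts' : (s, t) ∈ F.g i := by rw [hji]; exact hts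
      exact ⟨⟨t, ht, hts⟩, (F.g_pb i).2 s' s t hst' hts' ▸ hs'⟩
  have e2 : {t | ∃ s ∈ {t | ∃ s ∈ K.set k, (s, t) ∈ F.g j} ∩ a.dom, (s, t) ∈ F.g i} =
      K.set k ∩ {t | ∃ s ∈ a.dom, (s, t) ∈ F.g i} := by
    ext t
    constructor
    · rintro ⟨s, ⟨⟨t', ht', hts'⟩, hs⟩, hst⟩
      have hst' : (s, t') ∈ F.g i := by rw [hji]; exact hts'
      exact ⟨(F.g_pb i).1 s t' t hst' hst ▸ ht', s, hs, hst⟩
    · rintro ⟨ht, s, hs, hst⟩
      exact ⟨s, ⟨⟨t, ht, by rw [hij]; exact hst⟩, hs⟩, hst⟩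
  rw [e2, e1] at key
  rw [← key, map_inv]
  simp [mul_assoc]

/-- Eventually the diagonal word of a piece carries the field of the piece to that of its image. -/
theorem ev_moves_dom (K : F.FieldSys) (hp : commutator (Vgrp S) = ⊤) (hav : Avoids (Vgrp S))
    (hcl : K.Closed) {i : F.ι} (a : Piece K i) :
    F.Ev fun M => ∀ Φ : Fields K M, (Φ.setup hp hav).ctx.EmptyTrivial → ∀ v,
      M.f a.word * Φ.setField hp hav a.dom v * (M.f a.word)⁻¹ =
        Φ.setField hp hav {t | ∃ s ∈ a.dom, (s, t) ∈ F.g i} v := by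
  have himg : a.perm '' a.dom = {t | ∃ s ∈ a.dom, (s, t) ∈ F.g i} := by
    ext t
    constructor
    · rintro ⟨s, hs, rfl⟩; exact ⟨s, hs, a.graph s hs⟩
    · rintro ⟨s, hs, hst⟩; exact ⟨s, hs, (F.g_pb i).1 _ _ _ (a.graph s hs) hst⟩
  have hdiag : F.eval a.word = diag a.perm := Equiv.ext fun ⟨f, s⟩ => a.diag f s
  choose x hx hx' using fun j : Fin F.m => exists_defWord K hp hav a.isDef (F.vgen j)
  choose y hy hy' using fun j : Fin F.m =>
    exists_defWord K hp hav (hcl.img_def i a.isDef) (F.vgen j)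
  refine (Ev.all fun j : Fin F.m => Ev.rel (F := F) (a := a.word * x j * a.word⁻¹) (b := y j)
    ?_).mono fun M hM Φ hE v => ?_
  · rw [map_mul, map_mul, map_inv, hx, hy, hdiag, diag_restr, himg]
  · have : (MulAut.conj (M.f a.word)).toMonoidHom.comp (Φ.setField hp hav a.dom) =
        Φ.setField hp hav {t | ∃ s ∈ a.dom, (s, t) ∈ F.g i} := hom_ext (F := F) fun j => by
      show M.f a.word * Φ.setField hp hav a.dom (F.vgen j) * (M.f a.word)⁻¹ = _
      rw [show Φ.setField hp hav a.dom (F.vgen j) = M.f (x j) from hx' j M Φ hE,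
        show Φ.setField hp hav {t | ∃ s ∈ a.dom, (s, t) ∈ F.g i} (F.vgen j) = M.f (y j) from
          hy' j M Φ hE]
      have := hM j
      simp only [map_mul, map_inv] at this
      exact this
    exact DFunLike.congr_fun this v

end Vale.Agent.P193.Calc.Frame
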