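import Vale.Agent.P193.Full.Core.Values

/-! A path is its list of edges. -/

namespace Vale.Agent.P193.Core

set_option linter.unusedSectionVars false

variable {d : Data} [DecidableEq d.M.A]

/-- The edges of a path. -/
def Path.edges : {s : State d} → Path d s → List (Edge d)
  | _, .nil => []
  | _, .cons e _ σ => e :: σ.edges

theorem Path.src_ne_fin {e : Edge d} (he : e.OK) : e.src ≠ .fin := by
  cases he with
  | flood src p s hs => cases hs <;> simp
  | floodEnd src p s hs hp => cases hs <;> simp
  | _ => simp

theorem Path.heq_of_edges : ∀ {s : State d} (σ : Path d s) {s' : State d} (σ' : Path d s'),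
    s = s' → σ.edges = σ'.edges → HEq σ σ' := by
  intro s σ
  induction σ with
  | nil =>
    intro s' σ' hs he
    cases σ' with
    | nil => exact HEq.rfl
    | cons e h τ => simp [Path.edges] at he
  | cons e h τ ih =>
    intro s' σ' hs he
    cases σ' with
    | nil => exact absurd hs (Path.src_ne_fin h)
    | cons e' h' τ' =>
      simp only [Path.edges, List.cons.injEq] at he
      obtain ⟨rfl, he⟩ := he
      rw [eq_of_heq (ih τ' rfl he)]

theorem Path.eq_of_edges {s : State d} {σ σ' : Path d s} (h : σ.edges = σ'.edges) : σ = σ' :=
  eq_of_heq (Path.heq_of_edges σ σ' rfl h)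

theorem Path.edges_nil (σ : Path d (.fin : State d)) : σ.edges = [] := by
  have : ∀ {t : State d} (τ : Path d t), t = .fin → τ.edges = [] := by
    intro t τ ht
    cases τ with
    | nil => rfl
    | cons e h τ => exact absurd ht (Path.src_ne_fin h)
  exact this σ rfl

end Vale.Agent.P193.Core
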