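import Vale.Agent.P193.Full.Core.Rows

/-! Which rows occur at the boundary states. -/

namespace Vale.Agent.P193.Core

open FreeGroup

set_option linter.unusedSectionVars false

variable {d : Data} [DecidableEq d.M.A]

theorem step_run_path {i : Bool} (σb : Path d (.bd (!i))) :
    ∀ {q : d.M.Q} {l : List (d.M.Q × d.M.A × List d.M.A × d.M.Q)}, d.M.Run q l →
      ∀ {mid : List d.M.A}, d.M.inRow l = mid ++ [d.M.last] → d.M.first ∉ mid → d.M.last ∉ mid →
      ∃ σ : Path d (.step i q),
        offset d σ = pw i (d.M.inRow l) * offset d σb * (pw (!i) (d.M.outRow l))⁻¹ := by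
  intro q l h
  induction h with
  | done _ => intro mid hm; simp [RowMachine.inRow] at hm
  | @cons q a b q' rest ht hrest ih =>
    intro mid hm h1 h2
    cases mid with
    | nil =>
      simp [RowMachine.inRow] at hm
      obtain ⟨rfl, rfl⟩ := hm
      cases hrest with
      | done hacc =>
        refine ⟨Path.cons _ (Edge.OK.stepLast i q b q' ht hacc) σb, ?_⟩
        simp only [offset, Edge.pval, qval_eq, mk_emit, inRow_cons, outRow_cons, pw_cons]
        simp [RowMachine.inRow, RowMachine.outRow, pw_nil]
    | cons x mid =>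
      simp [RowMachine.inRow] at hm
      obtain ⟨rfl, hm⟩ := hm
      simp only [List.mem_cons, not_or] at h1 h2
      obtain ⟨σ, hσ⟩ := ih (mid := mid) hm h1.2 h2.2
      refine ⟨Path.cons _ (Edge.OK.stepMid i q a b q' ht (Ne.symm h1.1) (Ne.symm h2.1)) σ, ?_⟩
      simp only [offset, Edge.pval, qval_eq, mk_emit, hσ, inRow_cons, outRow_cons, pw_cons,
        pw_append, mul_inv_rev, mul_assoc]

theorem foldl_hnext_none (l : List d.M.A) :
    l.foldl (fun o a => o.bind fun s => d.M.hnext s a) none = none := by
  induction l with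
  | nil => rfl
  | cons a l ih => simpa using ih

theorem halt_run_path (i : Bool) : ∀ (mid : List d.M.A) (q q'' : d.M.Qh),
    (mid ++ [d.M.last]).foldl (fun o a => o.bind fun s => d.M.hnext s a) (some q) = some q'' →
    d.M.haccepts q'' → d.M.first ∉ mid → d.M.last ∉ mid →
    ∃ σ : Path d (.halt i q), offset d σ = pw i (mid ++ [d.M.last]) := by
  intro mid
  induction mid with
  | nil =>
    intro q q'' h hacc _ _
    simp at h
    exact ⟨Path.cons _ (Edge.OK.haltLast i q q'' h hacc) .nil, by
      rw [offset_cons_plain _ _ _ rfl rfl, List.nil_append, pw_cons, pw_nil]; rfl⟩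
  | cons x mid ih =>
    intro q q'' h hacc h1 h2
    cases hx : d.M.hnext q x with
    | none => rw [List.cons_append, List.foldl_cons] at h; simp [hx, foldl_hnext_none] at h
    | some q' =>
      simp only [List.mem_cons, not_or] at h1 h2
      rw [List.cons_append, List.foldl_cons] at h
      simp only [Option.bind_some, hx] at h
      obtain ⟨σ, hσ⟩ := ih q' q'' h hacc h1.2 h2.2
      refine ⟨Path.cons _ (Edge.OK.haltMid i q x q' hx (Ne.symm h1.1) (Ne.symm h2.1)) σ, ?_⟩
      rw [offset_cons_plain _ _ _ rfl rfl, hσ, List.cons_append, pw_cons i x]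

theorem halted_path (hG : Good d) (i : Bool) {r : List d.M.A} (h : d.M.Halted r) :
    ∃ σ : Path d (.bd i), offset d σ = pw i r := by
  obtain ⟨mid, rfl, h1, h2⟩ := hG.lawful.halted_ok r h
  obtain ⟨q'', hq, hacc⟩ := h
  cases hx : d.M.hnext d.M.hstart d.M.first with
  | none => rw [List.foldl_cons] at hq; simp [hx, foldl_hnext_none] at hq
  | some q' =>
    rw [List.foldl_cons] at hq
    simp only [Option.bind_some, hx] at hq
    obtain ⟨σ, hσ⟩ := halt_run_path i mid q' q'' hq hacc h1 h2
    refine ⟨Path.cons _ (Edge.OK.haltFirst i q' hx) σ, ?_⟩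
    rw [offset_cons_plain _ _ _ rfl rfl, hσ, pw_cons i d.M.first]

theorem step_path (hG : Good d) {r r' : List d.M.A} (h : d.M.Step r r') (i : Bool)
    (σb : Path d (.bd (!i))) (hb : offset d σb = pw (!i) r') :
    ∃ σ : Path d (.bd i), offset d σ = pw i r := by
  obtain ⟨mid, hm, h1, h2⟩ := (hG.lawful.step_ok r r' h).1
  obtain ⟨l, hl, hin, hout⟩ := h
  cases hl with
  | done _ => simp [RowMachine.inRow, hm] at hin
  | @cons q a b q' rest ht hrest =>
    rw [hm, inRow_cons, List.cons.injEq] at hin
    obtain ⟨ha, hin⟩ := hin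
    dsimp only at ha
    subst ha
    obtain ⟨σ, hσ⟩ := step_run_path σb hrest (mid := mid) hin h1 h2
    refine ⟨Path.cons _ (Edge.OK.stepFirst i b q' ht) σ, ?_⟩
    rw [hm, pw_cons]
    simp only [offset, Edge.pval, qval_eq, mk_emit, hσ, hb, hin]
    rw [← hout, outRow_cons]
    simp only [pw_append]
    group

/-- A row is the offset of a path exactly when it computes to a halted row. -/
theorem row_path_iff (hG : Good d) (i : Bool) (r : List d.M.A) :
    (∃ σ : Path d (.bd i), offset d σ = pw i r) ↔
      ∃ h, Relation.ReflTransGen d.M.Step r h ∧ d.M.Halted h := by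
  refine ⟨fun ⟨σ, hσ⟩ => chain_of_path hG r i σ hσ, ?_⟩
  rintro ⟨h, hr, hh⟩
  revert i
  induction hr using Relation.ReflTransGen.head_induction_on with
  | refl => exact fun i => halted_path hG i hh
  | head hs _ ih =>
    intro i
    obtain ⟨σb, hb⟩ := ih (!i)
    exact step_path hG hs i σb hb

end Vale.Agent.P193.Core
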