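import Vale.Agent.P193.Full.Core.Facts.Rules

/-! The finite list of true facts about the core model: generators, edge recursions, final state,
offset tree, machine rules. -/
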