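import Vale.Agent.P193.Full.Core.Legit

/-! Paths that are not clean take every offset with every guessed value. -/

namespace Vale.Agent.P193.Core

open FreeGroup

set_option linter.unusedSectionVars false

variable {d : Data} [DecidableEq d.M.A]

theorem legit_head (L : List (Fin d.n)) (b : Bool) :
    ∃ a, a ≠ d.M.first ∧ a ≠ d.M.last ∧
      (legit L b).toWord.head? = some ((a, false), true) := by
  cases L with
  | nil =>
    exact ⟨d.M.head b, (d.M.head_ne b).1, (d.M.head_ne b).2, by simp [toWord_legit, legitRow, par]⟩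
  | cons j L =>
    exact ⟨d.M.letter j, (d.M.letter_ne j).1, (d.M.letter_ne j).2.1,
      by simp [toWord_legit, legitRow, par]⟩

/-- A path that uses a junk edge while guessing takes every offset with every value. -/
theorem junk_exists (hG : Good d) (x : FA d) (m : Inner d) (N : ℕ) :
    ∃ σ : Path d .guess, ¬ clean d σ ∧ offset d σ = x ∧ guessVal d σ = m ∧
      N ≤ σ.edges.length := by
  have hi : Nonempty (Fin d.n) := by
    obtain ⟨w, hw⟩ := hG.gen_surj (1, FreeGroup.of (0 : Fin 2), 1)
    cases w with
    | nil =>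
      exfalso
      have := congrArg (fun p : Inner d => p.2.1.toWord) hw
      simp at this
    | cons a _ => exact ⟨a⟩
  obtain ⟨v, -, hv, hlen⟩ := exists_long_word hG hi.some m N
  obtain ⟨t, ht⟩ : ∃ t : Ltr d × Bool, ∀ L b, (mk [t])⁻¹ * (guessed v * x) ≠ legit L b := by
    by_cases h : ∃ L b, (mk [((d.M.first, false), true)])⁻¹ * (guessed v * x) = legit L b
    · obtain ⟨L, b, h⟩ := h
      refine ⟨((d.M.first, true), true), fun L' b' h' => ?_⟩
      obtain ⟨a, -, -, ha⟩ := legit_head L b
      obtain ⟨a', -, -, ha'⟩ := legit_head L' b'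
      rw [← h', inv_mk] at ha'
      rw [eq_comm, eq_inv_mul_iff_mul_eq] at h
      rw [← h, ← mul_assoc, mul_mk] at ha'
      have hr : FreeGroup.IsReduced
          (([((d.M.first, true), false), ((d.M.first, false), true)] : List (Ltr d × Bool)) ++
            (legit L b).toWord) := by
        refine List.isChain_cons_cons.2 ⟨by simp, isReduced_cons_iff.2 ⟨isReduced_toWord, ?_⟩⟩
        intro y hy
        simp only [List.nil_append, List.append_eq, ha] at hy
        cases hy
        simp
      conv at ha' => lhs; rw [← mk_toWord (x := legit L b), mul_mk]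
      change (FreeGroup.mk (([((d.M.first, true), false), ((d.M.first, false), true)] :
        List (Ltr d × Bool)) ++ (legit L b).toWord)).toWord.head? = _ at ha'
      rw [toWord_mk_of_reduced hr] at ha'
      simp at ha'
    · exact ⟨_, fun L b e => h ⟨L, b, e⟩⟩
  obtain ⟨τ, -, hτ, hτu, -⟩ := nonlegit_exists hG _ ht 1 0
  let jp : Path d .guess := Path.cons _ (Edge.OK.gjunk t) τ
  have key : ∀ v : List (Fin d.n), ∃ σ : Path d .guess, ¬ clean d σ ∧
      offset d σ = (guessed v)⁻¹ * offset d jp ∧ guessVal d σ = (v.map d.gen).prod ∧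
      v.length ≤ σ.edges.length := by
    intro v
    induction v with
    | nil => exact ⟨jp, fun h => h.elim, by simp [guessed, pw_nil], by simp [jp, guessVal],
        by simp⟩
    | cons i v ih =>
      obtain ⟨σ, h1, h2, h3, h4⟩ := ih
      refine ⟨Path.cons _ (Edge.OK.letter i) σ, h1, ?_, ?_, ?_⟩
      · rw [offset_cons_plain _ _ _ rfl rfl, h2, guessed_cons, mul_inv_rev, mul_assoc]
        congr 1
      · simp [guessVal, h3]
      · simp [Path.edges]; omega
  obtain ⟨σ, h1, h2, h3, h4⟩ := key v
  refine ⟨σ, h1, ?_, h3.trans hv, le_trans hlen h4⟩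
  rw [h2, show offset d jp = mk [t] * offset d τ from offset_cons_plain _ (Edge.OK.gjunk t) t rfl rfl τ, hτ,
    mul_inv_cancel_left, inv_mul_cancel_left]

end Vale.Agent.P193.Core
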