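import Vale.Agent.P193.Full.Core.Exists

/-! The three machine rules: guessed values of clean paths, offset by offset. -/

namespace Vale.Agent.P193.Core

open FreeGroup

set_option linter.unusedSectionVars false

variable {d : Data} [DecidableEq d.M.A]

/-- The word a legit offset spells: guessed letters, a mode head and the end marker. -/
def legitRow (L : List (Fin d.n)) (b : Bool) : List d.M.A :=
  L.map d.M.letter ++ [d.M.head b, d.M.last]

/-- A legit offset at the guess state. -/
def legit (L : List (Fin d.n)) (b : Bool) : FA d := pw false (legitRow L b)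

theorem legit_cons (j : Fin d.n) (L : List (Fin d.n)) (b : Bool) :
    legit (j :: L) b = mk [((d.M.letter j, false), true)] * legit L b := by
  rw [legit, legit, ← pw_cons]; rfl

theorem legit_row (L : List (Fin d.n)) (b : Bool) :
    mk [((d.M.first, false), true)] * legit L b = pw false (d.M.initRow L b) := by
  rw [legit, ← pw_cons]; rfl

theorem patRun_gPre_iff (w : List (Ltr d × Bool)) :
    (patRun .gPre w).inL = true ↔ ∃ L b, w = par false (legitRow L b) := by
  induction w with
  | nil =>
    constructor
    · intro h; simp [patRun, Pat.inL] at h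
    · rintro ⟨L, b, h⟩; simp [par, legitRow] at h
  | cons s w ih =>
    rw [patRun_cons]
    by_cases h1 : ∃ j, s = ((d.M.letter j, false), true)
    · obtain ⟨j, rfl⟩ := h1
      rw [show patNext d .gPre ((d.M.letter j, false), true) = .gPre by simp [patNext], ih]
      constructor
      · rintro ⟨L, b, rfl⟩; exact ⟨j :: L, b, rfl⟩
      · rintro ⟨L, b, h⟩
        cases L with
        | nil =>
          simp [par, legitRow] at h
          exact absurd h.1 ((d.M.letter_ne j).2.2 b)
        | cons k L => exact ⟨L, b, (List.cons.inj h).2⟩
    · by_cases h2 : ∃ b, s = ((d.M.head b, false), true)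
      · obtain ⟨b, rfl⟩ := h2
        have hn : ¬ ∃ j, d.M.head b = d.M.letter j := fun ⟨j, hj⟩ => (d.M.letter_ne j).2.2 b hj.symm
        have e : patNext d .gPre ((d.M.head b, false), true) = .gHead := by
          simp [patNext, hn]
        rw [e]
        have hh : ∀ v : List (Ltr d × Bool), (patRun .gHead v).inL = true ↔
            v = [((d.M.last, false), true)] := by
          intro v
          cases v with
          | nil => simp [patRun, Pat.inL]
          | cons t v =>
            rw [patRun_cons]
            by_cases ht : t = ((d.M.last, false), true)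
            · rw [show patNext d .gHead t = .gDone by simp [patNext, ht]]
              cases v with
              | nil => simp [patRun, Pat.inL, ht]
              | cons u v =>
                rw [patRun_cons, show patNext d .gDone u = .out by simp [patNext], patRun_out]
                simp [Pat.inL]
            · rw [show patNext d .gHead t = .out by simp [patNext, ht], patRun_out]
              simp [Pat.inL, ht]
        rw [hh]
        constructor
        · rintro rfl; exact ⟨[], b, rfl⟩
        · rintro ⟨L, b', h⟩
          cases L with
          | nil =>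
            simp [par, legitRow] at h
            exact h.2
          | cons k L =>
            simp [par, legitRow] at h
            exact absurd ⟨k, h.1⟩ hn
      · rw [show patNext d .gPre s = .out by simp [patNext, h1, h2], patRun_out]
        constructor
        · simp [Pat.inL]
        · rintro ⟨L, b, h⟩
          cases L with
          | nil => exact absurd ⟨b, (List.cons.inj h).1⟩ h2
          | cons k L => exact absurd ⟨k, (List.cons.inj h).1⟩ h1

theorem toWord_legit (L : List (Fin d.n)) (b : Bool) :
    (legit L b).toWord = par false (legitRow L b) := toWord_pw _ _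

/-- On a legit offset a clean path guesses the certified values only. -/
theorem legit_path (hG : Good d) : ∀ {s : State d} (σ : Path d s), s = .guess → clean d σ →
    ∀ L b, offset d σ = legit L b →
      ((L.reverse.map d.gen).prod * guessVal d σ = 1 ↔ b = true) := by
  intro s σ
  induction σ with
  | nil => intro h; cases h
  | cons e he σ ih =>
    intro hs hc L b hx
    cases he with
    | letter j =>
      have hy : offset d σ = legit (j :: L) b := by
        rw [offset_cons_plain _ _ _ rfl rfl] at hx
        rw [legit_cons, ← hx, ← mul_assoc, mul_mk]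
        have e1 : mk ([((d.M.letter j, false), true)] ++ [((d.M.letter j, false), false)]) =
            (1 : FA d) := by
          rw [← mul_mk, show mk [((d.M.letter j, false), false)] =
            (mk [((d.M.letter j, false), true)] : FA d)⁻¹ by rw [inv_mk]; rfl, mul_inv_cancel]
        rw [e1, one_mul]
      have := ih rfl hc (j :: L) b hy
      simpa [guessVal, mul_assoc] using this
    | gjunk t => exact hc.elim
    | reach t h => exact hc.elim
    | exit =>
      have hy : offset d σ = pw false (d.M.initRow L b) := by
        rw [offset_cons_plain _ _ _ rfl rfl] at hx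
        rw [← legit_row, ← hx, ← mul_assoc,
          show mk [((d.M.first, false), false)] =
            (mk [((d.M.first, false), true)] : FA d)⁻¹ by rw [inv_mk]; rfl,
          mul_inv_cancel, one_mul]
      have h := (hG.lawful.correct L b).1 (chain_of_path hG _ false σ hy)
      rw [hG.pred] at h
      simpa [guessVal] using h
    | flood src p t hf =>
      cases hf with
      | guess t =>
        exfalso
        have h := scan_not_inL σ (p := patNext d .gPre t) (s := t) rfl
        rw [← patRun_cons, ← toWord_cons_of_reduced (offset_shape σ).2,
          ← offset_cons_plain _ (Edge.OK.flood _ _ _ (FloodStart.guess t)) t rfl rfl, hx,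
          toWord_legit, (patRun_gPre_iff _).2 ⟨L, b, rfl⟩] at h
        cases h
      | bd i => cases hs
      | step i q a ha => cases hs
    | floodEnd src p t hf hp =>
      cases hf with
      | guess t =>
        exfalso
        have h1 : offset d σ = 1 := offset_shape σ
        rw [offset_cons_plain _ _ t rfl rfl, h1, mul_one] at hx
        have := congrArg FreeGroup.toWord hx
        rw [toWord_mk_of_reduced (List.isChain_singleton _), toWord_legit] at this
        have := congrArg List.length this
        simp [legitRow, par] at this
      | bd i => cases hs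
      | step i q a ha => cases hs
    | _ => cases hs

/-- The guessed letters, as they are read back by the offset. -/
def guessed (v : List (Fin d.n)) : FA d := pw false (v.reverse.map d.M.letter)

theorem guessed_cons (i : Fin d.n) (v : List (Fin d.n)) :
    guessed (i :: v) = guessed v * mk [((d.M.letter i, false), true)] := by
  rw [guessed, guessed, List.reverse_cons, List.map_append, pw_append]; rfl

/-- Guess letters in front of a path. -/
theorem prepend_letters (σ₀ : Path d .guess) (hc : clean d σ₀) :
    ∀ v : List (Fin d.n), ∃ σ : Path d .guess, clean d σ ∧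
      offset d σ = (guessed v)⁻¹ * offset d σ₀ ∧
      guessVal d σ = (v.map d.gen).prod * guessVal d σ₀ ∧ v.length ≤ σ.edges.length := by
  intro v
  induction v with
  | nil => exact ⟨σ₀, hc, by simp [guessed, pw_nil], by simp, by simp⟩
  | cons i v ih =>
    obtain ⟨σ, h1, h2, h3, h4⟩ := ih
    refine ⟨Path.cons _ (Edge.OK.letter i) σ, h1, ?_, ?_, ?_⟩
    · rw [offset_cons_plain _ _ _ rfl rfl, h2, guessed_cons, mul_inv_rev, mul_assoc]
      congr 1
    · simp [guessVal, h3, mul_assoc]
    · simp [Path.edges]; omega

theorem exists_long_word (hG : Good d) (i : Fin d.n) (m : Inner d) (N : ℕ) :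
    ∃ v : List (Fin d.n), v.head? = some i ∧ (v.map d.gen).prod = m ∧ N ≤ v.length := by
  obtain ⟨w, hw⟩ := hG.gen_surj (d.gen i)⁻¹
  induction N with
  | zero =>
    obtain ⟨u, hu⟩ := hG.gen_surj ((d.gen i)⁻¹ * m)
    exact ⟨i :: u, rfl, by simp [hu], Nat.zero_le _⟩
  | succ N ih =>
    obtain ⟨v, h1, h2, h3⟩ := ih
    exact ⟨i :: w ++ v, rfl, by simp [h2, hw], by simp; omega⟩

theorem two_gens (hG : Good d) : ∀ i : Fin d.n, ∃ j, j ≠ i := by
  intro i
  by_contra hne
  push Not at hne
  obtain ⟨v, hv⟩ := hG.gen_surj (1, FreeGroup.of (0 : Fin 2), 1)
  obtain ⟨w, hw⟩ := hG.gen_surj (1, FreeGroup.of (1 : Fin 2), 1)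
  have hrep : ∀ l : List (Fin d.n), (l.map d.gen).prod = d.gen i ^ l.length := by
    intro l
    induction l with
    | nil => simp
    | cons a l ih => rw [hne a]; simp [ih, pow_succ']
  rw [hrep] at hv hw
  have hcomm := (Commute.refl (d.gen i)).pow_pow v.length w.length
  rw [hv, hw] at hcomm
  have := congrArg (fun p : Inner d => p.2.1.toWord) hcomm.eq
  simp only [Prod.snd_mul, Prod.fst_mul, FreeGroup.of, mul_mk] at this
  rw [toWord_mk_of_reduced (by unfold FreeGroup.IsReduced; simp),
    toWord_mk_of_reduced (by unfold FreeGroup.IsReduced; simp)] at this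
  simp at this

/-- Every legit offset has, for every certified value, arbitrarily long clean paths. -/
theorem legit_exists (hG : Good d) (L : List (Fin d.n)) (b : Bool) (m : Inner d)
    (h : (L.reverse.map d.gen).prod * m = 1 ↔ b = true) (N : ℕ) :
    ∃ σ : Path d .guess, clean d σ ∧ offset d σ = legit L b ∧ guessVal d σ = m ∧
      N ≤ σ.edges.length := by
  have hn : Nonempty (Fin d.n) := by
    obtain ⟨w, hw⟩ := hG.gen_surj (1, FreeGroup.of (0 : Fin 2), 1)
    cases w with
    | nil =>
      exfalso
      have := congrArg (fun p : Inner d => p.2.1.toWord) hw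
      simp at this
    | cons a _ => exact ⟨a⟩
  obtain ⟨v, -, hv, hlen⟩ := exists_long_word hG hn.some m N
  have hrow := (hG.lawful.correct (v.reverse ++ L) b).2 (by
    rw [hG.pred, ← h]; simp [hv])
  obtain ⟨τ, hτ⟩ := (row_path_iff hG false (d.M.initRow (v.reverse ++ L) b)).2 hrow
  have hc : clean d (Path.cons _ Edge.OK.exit τ) := trivial
  obtain ⟨σ, h1, h2, h3, h4⟩ := prepend_letters _ hc v
  refine ⟨σ, h1, ?_, ?_, le_trans hlen h4⟩
  · rw [h2, offset_cons_plain _ _ _ rfl rfl, hτ, ← legit_row, ← mul_assoc (mk _),
      show mk [((d.M.first, false), false)] =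
        (mk [((d.M.first, false), true)] : FA d)⁻¹ by rw [inv_mk]; rfl,
      inv_mul_cancel, one_mul, guessed, legit, legit, legitRow, legitRow, List.map_append,
      List.append_assoc, pw_append, inv_mul_cancel_left]
  · rw [h3, hv]; simp [guessVal]

/-- An offset that is not legit has, for every value, arbitrarily long clean paths. -/
theorem nonlegit_exists (hG : Good d) (x : FA d) (hx : ∀ L b, x ≠ legit L b) (m : Inner d)
    (N : ℕ) :
    ∃ σ : Path d .guess, clean d σ ∧ offset d σ = x ∧ guessVal d σ = m ∧
      N ≤ σ.edges.length := by
  have hn : Nonempty (Fin d.n) := by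
    obtain ⟨w, hw⟩ := hG.gen_surj (1, FreeGroup.of (0 : Fin 2), 1)
    cases w with
    | nil =>
      exfalso
      have := congrArg (fun p : Inner d => p.2.1.toWord) hw
      simp at this
    | cons a _ => exact ⟨a⟩
  obtain ⟨i, hi⟩ : ∃ i, x.toWord.head? ≠ some ((d.M.letter i, false), false) := by
    by_cases h : x.toWord.head? = some ((d.M.letter hn.some, false), false)
    · obtain ⟨j, hj⟩ := two_gens hG hn.some
      refine ⟨j, ?_⟩
      rw [h]
      simpa using fun e => hj (d.M.letter_inj e).symm
    · exact ⟨_, h⟩
  obtain ⟨v, hv0, hv, hlen⟩ := exists_long_word hG i m (N + 1)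
  have hvw : v = i :: v.tail := by
    cases v with
    | nil => simp at hlen
    | cons a v => simp at hv0; rw [hv0]; rfl
  let u := v.reverse.map d.M.letter
  have hu : ∀ y, (par false u).getLast? = some y → y = ((d.M.letter i, false), true) := by
    intro y hy
    simp [par, u, hv0] at hy
    exact hy.symm
  have hr : FreeGroup.IsReduced (par false u ++ x.toWord) := by
    refine List.isChain_append.mpr ⟨?_, isReduced_toWord, fun p hp q hq => ?_⟩
    · rw [par_eq_pos]; exact pos_isReduced _
    · rw [hu p hp]
      obtain ⟨q1, q2⟩ := q
      intro h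
      simp at h
      subst h
      cases q2
      · exact absurd hq hi
      · rfl
  have hy : (guessed v * x).toWord = par false u ++ x.toWord := by
    conv_lhs => rw [guessed, pw, ← mk_toWord (x := x), mul_mk]
    exact toWord_mk_of_reduced hr
  have hc0 : v.length ≠ 0 := by omega
  obtain ⟨t, w, htw⟩ : ∃ t w, par false u ++ x.toWord = t :: w := by
    cases hc : par false u ++ x.toWord with
    | nil =>
      exfalso
      simp [par, u] at hc
      simp [hc.1] at hlen
    | cons t w => exact ⟨t, w, rfl⟩
  have hL : (patRun .gPre (t :: w)).inL = false := by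
    rw [← htw, ← Bool.not_eq_true, patRun_gPre_iff]
    rintro ⟨L, b, e⟩
    have hmem : ∀ (L : List (Fin d.n)) (v : List (Fin d.n)) (z : List (Ltr d × Bool)),
        par false (v.map d.M.letter) ++ z = par false (legitRow L b) →
          ∃ L', z = par false (legitRow L' b) := by
      intro L v
      induction v generalizing L with
      | nil => intro z hz; exact ⟨L, by simpa [par] using hz⟩
      | cons a v ih =>
        intro z hz
        cases L with
        | nil =>
          simp [par, legitRow] at hz
          exact absurd hz.1 ((d.M.letter_ne a).2.2 b)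
        | cons k L => exact ih L z (List.cons.inj hz).2
    obtain ⟨L', hL'⟩ := hmem L v.reverse _ e
    exact hx L' b (by rw [← mk_toWord (x := x), hL']; rfl)
  obtain ⟨τ, hτ, hc⟩ : ∃ τ : Path d .guess, offset d τ = guessed v * x ∧
      clean d τ ∧ guessVal d τ = 1 := by
    have hword : guessed v * x = mk (t :: w) := by
      rw [← mk_toWord (x := guessed v * x), hy, htw]
    by_cases hw : w = []
    · subst hw
      refine ⟨Path.cons _ (Edge.OK.floodEnd _ _ t (FloodStart.guess t) hL) Path.nil,
        ?_, trivial, rfl⟩
      rw [offset_cons_plain _ _ t rfl rfl, hword]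
      exact mul_one _
    · obtain ⟨σ, hσ⟩ := scan_exists w (patNext d .gPre t) t hw (htw ▸ hr) hL
      refine ⟨Path.cons _ (Edge.OK.flood _ _ t (FloodStart.guess t)) σ, ?_, trivial, rfl⟩
      rw [offset_cons_plain _ _ t rfl rfl, hσ, hword, mul_mk]
      rfl
  obtain ⟨σ, h1, h2, h3, h4⟩ := prepend_letters τ hc.1 v
  refine ⟨σ, h1, ?_, ?_, by omega⟩
  · rw [h2, hτ, inv_mul_cancel_left]
  · rw [h3, hv, hc.2, mul_one]

end Vale.Agent.P193.Core
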