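import Mathlib.Tactic.Group
import Vale.Agent.P193.Full.Core.Edges

/-! Protected offsets: each is the offset of at most one path, which runs the machine. -/

namespace Vale.Agent.P193.Core

open FreeGroup

set_option linter.unusedSectionVars false

variable {d : Data} [DecidableEq d.M.A]

theorem pw_cons (i : Bool) (a : d.M.A) (u : List d.M.A) :
    pw i (a :: u) = mk [((a, i), true)] * pw i u := by
  rw [pw, pw, mul_mk]; rfl

theorem pw_append (i : Bool) (u v : List d.M.A) : pw i (u ++ v) = pw i u * pw i v := by
  rw [pw, pw, pw, mul_mk, par, par, par, List.map_append]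

theorem pw_nil (i : Bool) : pw i ([] : List d.M.A) = 1 := by
  rw [pw, par, List.map_nil, ← one_eq_mk]

theorem mk_emit (i : Bool) (b : List d.M.A) : mk (pos (emit d i b)) = pw (!i) b := by
  rw [pw, par_eq_pos]; rfl

theorem pw_inj {i : Bool} {u v : List d.M.A} (h : pw i u = pw i v) : u = v := by
  have := congrArg FreeGroup.toWord h
  rw [toWord_pw, toWord_pw] at this
  exact List.map_injective_iff.2 (fun a b hab => by simpa using hab) this

/-- A positive letter is the only edge label that can start a two-block word. -/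
theorem succ_word {i : Bool} {a : d.M.A} {u v b : List d.M.A} {y : FA d} {z : Ltr d}
    (hy : y.toWord.head? = some (z, true)) (hu : u ≠ [])
    (h : mk [((a, i), true)] * y * (pw (!i) b)⁻¹ = pw i u * pw (!i) v) :
    ∃ u', u = a :: u' ∧ y = pw i u' * pw (!i) (v ++ b) := by
  obtain ⟨c, u', rfl⟩ := List.exists_cons_of_ne_nil hu
  have e : y = (mk [((a, i), true)])⁻¹ * (pw i (c :: u') * pw (!i) (v ++ b)) := by
    rw [pw_append, ← mul_assoc (pw i (c :: u')), ← h]
    group
  by_cases hc : c = a
  · subst hc
    refine ⟨u', rfl, ?_⟩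
    rw [e, pw_cons, mul_assoc, inv_mul_cancel_left]
  · exfalso
    have hr : FreeGroup.IsReduced
        (((a, i), false) :: (par i (c :: u') ++ par (!i) (v ++ b))) := by
      refine isReduced_cons_iff.2 ⟨par_two_reduced _ _ _, fun w hw hw' => ?_⟩
      simp [par] at hw
      subst hw
      simp at hw'
      exact hc hw'
    have hy' : y.toWord = ((a, i), false) :: (par i (c :: u') ++ par (!i) (v ++ b)) := by
      rw [e, pw, pw, mul_mk, inv_mk, mul_mk, ← toWord_mk_of_reduced hr]
      rfl
    simp [hy'] at hy

/-- The edge of a transition inside a row of parity `i`. -/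
noncomputable def stepEdge (i : Bool) (e : d.M.Q × d.M.A × List d.M.A × d.M.Q) : Edge d :=
  open Classical in
  ⟨if e.2.1 = d.M.first then .bd i else .step i e.1,
    if e.2.1 = d.M.last then .bd (!i) else .step i e.2.2.2, [((e.2.1, i), true)],
    emit d i e.2.2.1, .other⟩

/-- The edges spelling a halted row. -/
def haltEdges (i : Bool) : State d → d.M.Qh → List d.M.A → List (Edge d)
  | _, _, [] => []
  | src, q, [a] =>
    [⟨src, (if (d.M.hnext q a).isSome then .fin else src), [((a, i), true)], [], .other⟩]
  | src, q, a :: b :: l => match d.M.hnext q a with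
    | some q' =>
      ⟨src, .halt i q', [((a, i), true)], [], .other⟩ :: haltEdges i (.halt i q') q' (b :: l)
    | none => []

theorem haltEdges_cons {i : Bool} {src : State d} {q q' : d.M.Qh} {a : d.M.A} {l : List d.M.A}
    (h : d.M.hnext q a = some q') (hl : l ≠ []) :
    haltEdges i src q (a :: l) =
      ⟨src, .halt i q', [((a, i), true)], [], .other⟩ :: haltEdges i (.halt i q') q' l := by
  cases l with
  | nil => exact absurd rfl hl
  | cons b l => simp [haltEdges, h]

/-- What a path with a protected offset looks like. -/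
def Desc : (s : State d) → Path d s → Prop
  | .bd i, σ => ∀ u, offset d σ = pw i u →
    (∃ l, ∃ σb : Path d (.bd (!i)), d.M.Run d.M.start l ∧ d.M.inRow l = u ∧
      offset d σb = pw (!i) (d.M.outRow l) ∧ σ.edges = l.map (stepEdge i) ++ σb.edges) ∨
    (d.M.Halted u ∧ σ.edges = haltEdges i (.bd i) d.M.hstart u)
  | .step i q, σ => ∀ u v, offset d σ = pw i u * pw (!i) v →
    ∃ l, ∃ σb : Path d (.bd (!i)), d.M.Run q l ∧ d.M.inRow l = u ∧
      offset d σb = pw (!i) (v ++ d.M.outRow l) ∧ σ.edges = l.map (stepEdge i) ++ σb.edges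
  | .halt i q, σ => ∃ α q', α ≠ [] ∧
      α.foldl (fun o a => o.bind fun s => d.M.hnext s a) (some q) = some q' ∧
      d.M.haccepts q' ∧ σ.edges = haltEdges i (.halt i q) q α ∧ offset d σ = pw i α
  | _, _ => True

theorem outRow_cons (e : d.M.Q × d.M.A × List d.M.A × d.M.Q) (l) :
    d.M.outRow (e :: l) = e.2.2.1 ++ d.M.outRow l := by simp [RowMachine.outRow]

theorem inRow_cons (e : d.M.Q × d.M.A × List d.M.A × d.M.Q) (l) :
    d.M.inRow (e :: l) = e.2.1 :: d.M.inRow l := rfl

theorem path_desc : ∀ {s : State d} (σ : Path d s), Desc s σ := by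
  intro s σ
  induction σ with
  | nil => trivial
  | cons e he σ ih =>
    have hsh : Shape e.src (offset d (Path.cons e he σ)) := offset_shape _
    have hsh' := offset_shape σ
    cases he with
    | letter j => trivial
    | gjunk t => trivial
    | reach t h => trivial
    | exit => trivial
    | scan p s s' hf => trivial
    | scanEnd p s s' hf hp => trivial
    | stepFirst i b q' ht =>
      intro u hu
      obtain ⟨c, -, hc⟩ := hsh'
      have hu0 : u ≠ [] := by
        rintro rfl
        have := hsh
        simp [Shape, hu, pw_nil] at this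
      have h2 : mk [((d.M.first, i), true)] * offset d σ * (pw (!i) b)⁻¹ =
          pw i u * pw (!i) [] := by
        rw [pw_nil, mul_one, ← hu, ← mk_emit]; rfl
      obtain ⟨u', rfl, hy⟩ := succ_word hc hu0 h2
      obtain ⟨l, σb, hl, hin, hb, hedge⟩ := ih u' _ hy
      refine Or.inl ⟨_, σb, RowMachine.Run.cons ht hl, ?_, ?_, ?_⟩
      · rw [inRow_cons, hin]
      · rw [hb, outRow_cons]; rfl
      · simp [Path.edges, hedge, stepEdge, d.M.first_ne_last]
    | stepMid i q a b q' ht ha ha' =>
      intro u v hu
      obtain ⟨c, -, hc⟩ := hsh'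
      have hu0 : u ≠ [] := by
        rintro rfl
        obtain ⟨x, -, hx⟩ := hsh
        rw [hu, toWord_two] at hx
        cases v <;> simp [par] at hx
      have h2 : mk [((a, i), true)] * offset d σ * (pw (!i) b)⁻¹ = pw i u * pw (!i) v := by
        rw [← hu, ← mk_emit]; rfl
      obtain ⟨u', rfl, hy⟩ := succ_word hc hu0 h2
      obtain ⟨l, σb, hl, hin, hb, hedge⟩ := ih u' _ hy
      refine ⟨_, σb, RowMachine.Run.cons ht hl, ?_, ?_, ?_⟩
      · rw [inRow_cons, hin]
      · rw [hb, outRow_cons, List.append_assoc]
      · simp [Path.edges, hedge, stepEdge, ha, ha']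
    | stepLast i q b q' ht hacc =>
      intro u v hu
      have hu0 : u ≠ [] := by
        rintro rfl
        obtain ⟨x, -, hx⟩ := hsh
        rw [hu, toWord_two] at hx
        cases v <;> simp [par] at hx
      have h2 : mk [((d.M.last, i), true)] * offset d σ * (pw (!i) b)⁻¹ =
          pw i u * pw (!i) v := by
        rw [← hu, ← mk_emit]; rfl
      obtain ⟨u', rfl, hy⟩ := succ_word hsh' hu0 h2
      have hu' : u' = [] := by
        cases u' with
        | nil => rfl
        | cons c u' =>
          exfalso
          have := hsh'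
          simp [Shape, hy, toWord_two, par] at this
      subst hu'
      refine ⟨_, σ, RowMachine.Run.cons ht (RowMachine.Run.done hacc), rfl, ?_, ?_⟩
      · rw [hy, pw_nil, one_mul]; simp [RowMachine.outRow]
      · simp [Path.edges, stepEdge, Ne.symm d.M.first_ne_last]
    | haltFirst i q' hq =>
      intro u hu
      obtain ⟨α, q'', hne, hf, hacc, hedge, hx⟩ := ih
      have h2 : pw i u = pw i (d.M.first :: α) := by
        rw [← hu, pw_cons, ← hx, offset_cons_plain _ _ _ rfl rfl]
      obtain rfl := pw_inj h2
      refine Or.inr ⟨⟨q'', ?_, hacc⟩, ?_⟩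
      · simpa [List.foldl_cons, hq] using hf
      · rw [haltEdges_cons hq hne]
        simp [Path.edges, hedge]
    | haltMid i q a q' hq ha ha' =>
      obtain ⟨α, q'', hne, hf, hacc, hedge, hx⟩ := ih
      refine ⟨a :: α, q'', by simp, ?_, hacc, ?_, ?_⟩
      · simpa [List.foldl_cons, hq] using hf
      · rw [haltEdges_cons hq hne]
        simp [Path.edges, hedge]
      · rw [pw_cons, ← hx, offset_cons_plain _ _ _ rfl rfl]
    | haltLast i q q' hq hacc =>
      have h1 : offset d σ = 1 := offset_shape σ
      refine ⟨[d.M.last], q', by simp, by simp [hq], hacc, ?_, ?_⟩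
      · simp [Path.edges, Path.edges_nil σ, haltEdges, hq]
      · rw [pw_cons, pw_nil, offset_cons_plain _ _ _ rfl rfl, h1]
    | flood src p s hs =>
      have hnot : (patRun p (offset d
          (Path.cons _ (Edge.OK.flood src p s hs) σ)).toWord).inL = false := by
        rw [offset_cons_plain _ _ s rfl rfl, toWord_cons_of_reduced (offset_shape σ).2,
          patRun_cons]
        exact scan_not_inL σ rfl
      cases hs with
      | guess s => trivial
      | bd i =>
        intro u hu
        exfalso
        rw [hu, toWord_pw, (patRun_bd_iff i _).2 ⟨u, rfl⟩] at hnot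
        cases hnot
      | step i q a ha =>
        intro u v hu
        exfalso
        rw [hu, toWord_two, (patRun_step_iff i _).2 ⟨u, v, rfl⟩] at hnot
        cases hnot
    | floodEnd src p s hs hp =>
      have hnot : (patRun p (offset d
          (Path.cons _ (Edge.OK.floodEnd src p s hs hp) σ)).toWord).inL = false := by
        have h1 : offset d σ = 1 := offset_shape σ
        rw [offset_cons_plain _ _ s rfl rfl, h1, mul_one,
          toWord_mk_of_reduced (List.isChain_singleton _)]
        exact hp
      cases hs with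
      | guess s => trivial
      | bd i =>
        intro u hu
        exfalso
        rw [hu, toWord_pw, (patRun_bd_iff i _).2 ⟨u, rfl⟩] at hnot
        cases hnot
      | step i q a ha =>
        intro u v hu
        exfalso
        rw [hu, toWord_two, (patRun_step_iff i _).2 ⟨u, v, rfl⟩] at hnot
        cases hnot

/-- A row at a boundary is the offset of at most one path. -/
theorem row_path_unique (hG : Good d) (r : List d.M.A) :
    ∀ (i : Bool) (σ σ' : Path d (.bd i)), offset d σ = pw i r → offset d σ' = pw i r → σ = σ' := by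
  induction r using hG.lawful.wf.induction with
  | _ r ih =>
  intro i σ σ' hσ hσ'
  apply Path.eq_of_edges
  rcases path_desc σ r hσ with ⟨l, τ, hl, hin, hb, he⟩ | ⟨hh, he⟩
  · rcases path_desc σ' r hσ' with ⟨l', τ', hl', hin', hb', he'⟩ | ⟨hh', he'⟩
    · obtain rfl := hG.lawful.unambiguous l l' hl hl' (hin.trans hin'.symm)
      rw [he, he', ih _ ⟨l, hl, hin, rfl⟩ _ τ τ' hb hb']
    · exact absurd ⟨l, hl, hin, rfl⟩ (hG.lawful.halted_stops r (d.M.outRow l) hh')
  · rcases path_desc σ' r hσ' with ⟨l', τ', hl', hin', hb', he'⟩ | ⟨hh', he'⟩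
    · exact absurd ⟨l', hl', hin', rfl⟩ (hG.lawful.halted_stops r (d.M.outRow l') hh)
    · rw [he, he']

/-- A reached row leads to a halted row. -/
theorem chain_of_path (hG : Good d) (r : List d.M.A) :
    ∀ (i : Bool) (σ : Path d (.bd i)), offset d σ = pw i r →
      ∃ r', Relation.ReflTransGen d.M.Step r r' ∧ d.M.Halted r' := by
  induction r using hG.lawful.wf.induction with
  | _ r ih =>
  intro i σ hσ
  rcases path_desc σ r hσ with ⟨l, τ, hl, hin, hb, -⟩ | ⟨hh, -⟩
  · obtain ⟨r', h1, h2⟩ := ih _ ⟨l, hl, hin, rfl⟩ _ τ hb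
    exact ⟨r', Relation.ReflTransGen.head ⟨l, hl, hin, rfl⟩ h1, h2⟩
  · exact ⟨r, Relation.ReflTransGen.refl, hh⟩

end Vale.Agent.P193.Core
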