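import Vale.Agent.P193.Full.Model
import Vale.Agent.P193.Full.Core.Cancel

/-! The first letter of an offset is decided by the state (the shapes of note P193 by helper67). -/

namespace Vale.Agent.P193.Core

open FreeGroup

set_option linter.unusedSectionVars false

section
variable {A : Type} [DecidableEq A]

theorem toWord_mk_of_reduced {L : List (A × Bool)} (h : FreeGroup.IsReduced L) : (mk L).toWord = L := by
  rw [toWord_mk, h.reduce_eq]

theorem toWord_cons_of_reduced {s : A × Bool} {x : FreeGroup A}
    (h : FreeGroup.IsReduced (s :: x.toWord)) : (mk [s] * x).toWord = s :: x.toWord := by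
  conv_lhs => rw [← mk_toWord (x := x), mul_mk]
  exact toWord_mk_of_reduced h

theorem mk_pos_nil : (mk (pos ([] : List A)) : FreeGroup A) = 1 := by
  simp [pos, ← one_eq_mk]

/-- The first letter survives multiplication by an inverted word not containing it. -/
theorem head_mul_pos_inv {x : FreeGroup A} {a : A} (hx : x.toWord.head? = some (a, true))
    {P : List A} (hP : a ∉ P) :
    (x * (mk (pos P))⁻¹).toWord.head? = some (a, true) := by
  obtain ⟨L₁, P₁, S, e1, e2, e3, -⟩ := toWord_mul_pos_inv x.toWord isReduced_toWord P
  rw [mk_toWord] at e3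
  rw [e3]
  cases L₁ with
  | nil =>
    exfalso
    rw [e1, List.nil_append, pos, List.head?_map] at hx
    obtain ⟨b, hb, hb'⟩ := Option.map_eq_some_iff.1 hx
    simp at hb'
    subst hb'
    exact hP (e2 ▸ List.mem_append_right _ (List.mem_of_mem_head? hb))
  | cons y L₁ =>
    rw [e1] at hx
    simpa using hx

/-- A first letter of a product with an inverted positive word comes from one of the factors. -/
theorem head_mul_pos_inv_cases (x : FreeGroup A) (P : List A) {y : A × Bool}
    (hy : (x * (mk (pos P))⁻¹).toWord.head? = some y) :
    x.toWord.head? = some y ∨ ∃ a ∈ P, y = (a, false) := by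
  obtain ⟨L₁, P₁, S, e1, e2, e3, -⟩ := toWord_mul_pos_inv x.toWord isReduced_toWord P
  rw [mk_toWord] at e3
  rw [e3] at hy
  cases L₁ with
  | nil =>
    right
    rw [List.nil_append, neg, List.head?_map] at hy
    obtain ⟨a, ha, rfl⟩ := Option.map_eq_some_iff.1 hy
    exact ⟨a, e2 ▸ List.mem_append_left _ (by simpa using List.mem_of_mem_head? ha), rfl⟩
  | cons z L₁ =>
    left
    rw [e1]
    simpa using hy

theorem isReduced_cons_iff {s : A × Bool} {L : List (A × Bool)} :
    FreeGroup.IsReduced (s :: L) ↔ FreeGroup.IsReduced L ∧ ∀ y, L.head? = some y → y ≠ (s.1, !s.2) := by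
  unfold FreeGroup.IsReduced
  rw [List.isChain_cons]
  constructor
  · rintro ⟨h1, h2⟩
    refine ⟨h2, fun y hy he => ?_⟩
    have := h1 y hy
    obtain ⟨s1, s2⟩ := s
    subst he
    cases s2 <;> simp at this
  · rintro ⟨h2, h1⟩
    refine ⟨fun y hy hfst => ?_, h2⟩
    have := h1 y hy
    obtain ⟨s1, s2⟩ := s
    obtain ⟨y1, y2⟩ := y
    simp at hfst
    subst hfst
    cases s2 <;> cases y2 <;> simp_all

end

variable {d : Data} [DecidableEq d.M.A]

theorem qval_eq (e : Edge d) : e.qval = mk (pos e.q) := rfl

theorem emit_parity {i : Bool} {b : List d.M.A} {x : Ltr d} (h : x ∈ emit d i b) : x.2 = !i := by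
  simp [emit] at h
  obtain ⟨a, -, rfl⟩ := h
  rfl

theorem not_mem_emit (i : Bool) (b : List d.M.A) (a : d.M.A) : (a, i) ∉ emit d i b := by
  intro h
  have := emit_parity h
  simp at this

/-- What is true of the offset at each state. -/
def Shape : State d → FA d → Prop
  | .guess, _ => True
  | .bd i, x => x.toWord.head? = some ((d.M.first, i), true)
  | .step i _, x => ∃ a, a ≠ d.M.first ∧ x.toWord.head? = some ((a, i), true)
  | .halt i _, x => ∃ a, a ≠ d.M.first ∧ x.toWord.head? = some ((a, i), true)
  | .fin, x => x = 1
  | .scan _ s, x => x ≠ 1 ∧ FreeGroup.IsReduced (s :: x.toWord)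

theorem toWord_eq_nil_of_one {x : FA d} (h : x = 1) : x.toWord = [] := by simp [h]

/-- Every path has an offset of the shape of its first state. -/
theorem offset_shape : ∀ {s : State d} (σ : Path d s), Shape s (offset d σ) := by
  intro s σ
  induction σ with
  | nil => rfl
  | cons e he σ ih =>
    have key : ∀ {t : Ltr d × Bool} {y : FA d},
        (∀ z, y.toWord.head? = some z → z ≠ (t.1, !t.2)) →
        (mk [t] * y).toWord = t :: y.toWord := fun h =>
      toWord_cons_of_reduced (isReduced_cons_iff.2 ⟨isReduced_toWord, h⟩)
    cases he with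
    | letter j => trivial
    | gjunk t => trivial
    | reach t h => trivial
    | exit => trivial
    | stepFirst i b q' ht =>
      obtain ⟨a, -, ha⟩ := ih
      show _ = _
      simp only [offset, Edge.pval, qval_eq, mul_assoc]
      rw [key (fun z hz => ?_)]
      · rfl
      · rw [head_mul_pos_inv ha (not_mem_emit i b a)] at hz
        rintro rfl
        simp at hz
    | stepMid i q a b q' ht h1 h2 =>
      obtain ⟨c, -, hc⟩ := ih
      refine ⟨a, h1, ?_⟩
      simp only [offset, Edge.pval, qval_eq, mul_assoc]
      rw [key (fun z hz => ?_)]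
      · rfl
      · rw [head_mul_pos_inv hc (not_mem_emit i b c)] at hz
        rintro rfl
        simp at hz
    | stepLast i q b q' ht hacc =>
      refine ⟨d.M.last, fun h => d.M.first_ne_last h.symm, ?_⟩
      simp only [offset, Edge.pval, qval_eq, mul_assoc]
      rw [key (fun z hz => ?_)]
      · rfl
      · rintro rfl
        rcases head_mul_pos_inv_cases _ _ hz with h | ⟨a, ha, h⟩
        · rw [ih] at h
          simp at h
        · have := emit_parity ha
          simp at h
          rw [← h] at this
          simp at this
    | haltFirst i q' hq =>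
      obtain ⟨a, -, ha⟩ := ih
      show _ = _
      simp only [offset, Edge.pval, qval_eq, mk_pos_nil, inv_one, mul_one]
      rw [key (fun z hz => ?_)]
      · rfl
      · rw [ha] at hz
        rintro rfl
        simp at hz
    | haltMid i q a q' hq h1 h2 =>
      obtain ⟨c, -, hc⟩ := ih
      refine ⟨a, h1, ?_⟩
      simp only [offset, Edge.pval, qval_eq, mk_pos_nil, inv_one, mul_one]
      rw [key (fun z hz => ?_)]
      · rfl
      · rw [hc] at hz
        rintro rfl
        simp at hz
    | haltLast i q q' hq hacc =>
      refine ⟨d.M.last, fun h => d.M.first_ne_last h.symm, ?_⟩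
      simp only [offset, Edge.pval, qval_eq, mk_pos_nil, inv_one, mul_one]
      rw [key (fun z hz => ?_)]
      · rfl
      · rw [toWord_eq_nil_of_one ih] at hz
        simp at hz
    | flood src p s hs =>
      have hw : (offset d (Path.cons _ (Edge.OK.flood src p s hs) σ)).toWord =
          s :: (offset d σ).toWord := by
        simp only [offset, Edge.pval, qval_eq, mk_pos_nil, inv_one, mul_one]
        exact toWord_cons_of_reduced ih.2
      cases hs with
      | guess s => trivial
      | bd i => exact (congrArg List.head? hw).trans rfl
      | step i q a ha => exact ⟨a, ha, (congrArg List.head? hw).trans rfl⟩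
    | floodEnd src p s hs hp =>
      have hw : (offset d (Path.cons _ (Edge.OK.floodEnd src p s hs hp) σ)).toWord = [s] := by
        simp only [offset, Edge.pval, qval_eq, mk_pos_nil, inv_one, mul_one]
        rw [toWord_cons_of_reduced]
        · rw [toWord_eq_nil_of_one ih]
        · rw [toWord_eq_nil_of_one ih]; exact List.isChain_singleton _
      cases hs with
      | guess s => trivial
      | bd i => exact (congrArg List.head? hw).trans rfl
      | step i q a ha => exact ⟨a, ha, (congrArg List.head? hw).trans rfl⟩
    | scan p s s' hf =>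
      have hw : (offset d (Path.cons _ (Edge.OK.scan p s s' hf) σ)).toWord =
          s' :: (offset d σ).toWord := by
        simp only [offset, Edge.pval, qval_eq, mk_pos_nil, inv_one, mul_one]
        exact toWord_cons_of_reduced ih.2
      refine ⟨fun h => ?_, ?_⟩
      · rw [h] at hw; simp at hw
      · rw [hw]
        refine isReduced_cons_iff.2 ⟨ih.2, fun y hy => ?_⟩
        simp at hy
        subst hy
        exact hf
    | scanEnd p s s' hf hp =>
      have hw : (offset d (Path.cons _ (Edge.OK.scanEnd p s s' hf hp) σ)).toWord = [s'] := by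
        simp only [offset, Edge.pval, qval_eq, mk_pos_nil, inv_one, mul_one]
        rw [toWord_cons_of_reduced]
        · rw [toWord_eq_nil_of_one ih]
        · rw [toWord_eq_nil_of_one ih]; exact List.isChain_singleton _
      refine ⟨fun h => ?_, ?_⟩
      · rw [h] at hw; simp at hw
      · rw [hw]
        refine isReduced_cons_iff.2 ⟨List.isChain_singleton _, fun y hy => ?_⟩
        simp at hy
        subst hy
        exact hf

end Vale.Agent.P193.Core
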