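import Vale.Agent.P193.Full.Core.Shape

/-! Flood paths: which offsets are reached outside the protected words. -/

namespace Vale.Agent.P193.Core

open FreeGroup

set_option linter.unusedSectionVars false

variable {d : Data} [DecidableEq d.M.A]

/-- Reading a word in the protected-word automaton. -/
noncomputable def patRun (p : Pat) (w : List (Ltr d × Bool)) : Pat := w.foldl (patNext d) p

theorem patRun_out (w : List (Ltr d × Bool)) : patRun (d := d) .out w = .out := by
  induction w with
  | nil => rfl
  | cons a w ih =>
    show patRun (patNext d .out a) w = _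
    simpa [patNext] using ih

theorem patRun_cons (p : Pat) (a : Ltr d × Bool) (w : List (Ltr d × Bool)) :
    patRun p (a :: w) = patRun (patNext d p a) w := rfl

/-- Row letters of one parity, as a positive word. -/
def par (i : Bool) (u : List d.M.A) : List (Ltr d × Bool) := u.map fun a => ((a, i), true)

theorem par_eq_pos (i : Bool) (u : List d.M.A) : par i u = pos (u.map fun a => (a, i)) := by
  simp [par, pos, List.map_map, Function.comp_def]

/-- The positive element spelled by row letters of one parity. -/
def pw (i : Bool) (u : List d.M.A) : FA d := FreeGroup.mk (par i u)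

theorem par_two_reduced (i : Bool) (u v : List d.M.A) :
    FreeGroup.IsReduced (par i u ++ par (!i) v) := by
  have : par i u ++ par (!i) v = pos (u.map (fun a => (a, i)) ++ v.map fun a => (a, !i)) := by
    simp [par, pos, List.map_map, Function.comp_def]
  rw [this]
  exact pos_isReduced _

theorem toWord_two (i : Bool) (u v : List d.M.A) :
    (pw i u * pw (!i) v).toWord = par i u ++ par (!i) v := by
  rw [pw, pw, mul_mk, toWord_mk_of_reduced (par_two_reduced i u v)]

theorem toWord_pw (i : Bool) (u : List d.M.A) : (pw i u).toWord = par i u := by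
  rw [pw, par_eq_pos, toWord_mk_of_reduced (pos_isReduced _)]

theorem patRun_bd_iff (i : Bool) (w : List (Ltr d × Bool)) :
    (patRun (.bd i) w).inL = true ↔ ∃ u, w = par i u := by
  induction w with
  | nil => exact ⟨fun _ => ⟨[], rfl⟩, fun _ => rfl⟩
  | cons s w ih =>
    rw [patRun_cons]
    by_cases h : s.2 = true ∧ s.1.2 = i
    · rw [show patNext d (.bd i) s = .bd i by simp [patNext, h], ih]
      constructor
      · rintro ⟨u, rfl⟩
        refine ⟨s.1.1 :: u, ?_⟩
        obtain ⟨⟨a, j⟩, b⟩ := s
        obtain ⟨rfl, rfl⟩ := h
        rfl
      · rintro ⟨u, hu⟩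
        cases u with
        | nil => simp [par] at hu
        | cons a u => exact ⟨u, (List.cons.inj hu).2⟩
    · rw [show patNext d (.bd i) s = .out by simp [patNext, h], patRun_out]
      constructor
      · simp [Pat.inL]
      · rintro ⟨u, hu⟩
        cases u with
        | nil => simp [par] at hu
        | cons a u =>
          have := (List.cons.inj hu).1
          subst this
          simp at h

theorem patRun_past_iff (i : Bool) (w : List (Ltr d × Bool)) :
    (patRun (.step i true) w).inL = true ↔ ∃ v, w = par (!i) v := by
  induction w with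
  | nil => exact ⟨fun _ => ⟨[], rfl⟩, fun _ => rfl⟩
  | cons s w ih =>
    rw [patRun_cons]
    by_cases h : s.2 = true ∧ s.1.2 = (!i)
    · rw [show patNext d (.step i true) s = .step i true by simp [patNext, h], ih]
      constructor
      · rintro ⟨u, rfl⟩
        refine ⟨s.1.1 :: u, ?_⟩
        obtain ⟨⟨a, j⟩, b⟩ := s
        obtain ⟨rfl, rfl⟩ := h
        rfl
      · rintro ⟨u, hu⟩
        cases u with
        | nil => simp [par] at hu
        | cons a u => exact ⟨u, (List.cons.inj hu).2⟩
    · rw [show patNext d (.step i true) s = .out by simp [patNext, h], patRun_out]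
      constructor
      · simp [Pat.inL]
      · rintro ⟨u, hu⟩
        cases u with
        | nil => simp [par] at hu
        | cons a u =>
          have := (List.cons.inj hu).1
          subst this
          simp at h

theorem patRun_step_iff (i : Bool) (w : List (Ltr d × Bool)) :
    (patRun (.step i false) w).inL = true ↔ ∃ u v, w = par i u ++ par (!i) v := by
  induction w with
  | nil => exact ⟨fun _ => ⟨[], [], rfl⟩, fun _ => rfl⟩
  | cons s w ih =>
    rw [patRun_cons]
    obtain ⟨⟨a, j⟩, b⟩ := s
    cases b with
    | false =>
      rw [show patNext d (.step i false) ((a, j), false) = .out by simp [patNext], patRun_out]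
      constructor
      · simp [Pat.inL]
      · rintro ⟨u, v, hu⟩
        cases u with
        | nil => cases v <;> simp [par] at hu
        | cons c u => simp [par] at hu
    | true =>
      by_cases hj : j = i
      · subst hj
        rw [show patNext d (.step j false) ((a, j), true) = .step j false by simp [patNext], ih]
        constructor
        · rintro ⟨u, v, rfl⟩; exact ⟨a :: u, v, rfl⟩
        · rintro ⟨u, v, hu⟩
          cases u with
          | nil =>
            cases v with
            | nil => simp [par] at hu
            | cons c v => simp [par] at hu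
          | cons c u => exact ⟨u, v, (List.cons.inj hu).2⟩
      · have hj' : j = !i := by cases i <;> cases j <;> simp_all
        subst hj'
        rw [show patNext d (.step i false) ((a, !i), true) = .step i true by simp [patNext],
          patRun_past_iff]
        constructor
        · rintro ⟨v, rfl⟩; exact ⟨[], a :: v, rfl⟩
        · rintro ⟨u, v, hu⟩
          cases u with
          | nil =>
            cases v with
            | nil => simp [par] at hu
            | cons c v => exact ⟨v, (List.cons.inj hu).2⟩
          | cons c u => simp [par] at hu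

theorem offset_cons_plain (e : Edge d) (he : e.OK) (s : Ltr d × Bool) (hp : e.p = [s])
    (hq : e.q = []) (σ : Path d e.tgt) : offset d (.cons e he σ) = mk [s] * offset d σ := by
  simp [offset, Edge.pval, qval_eq, hp, hq, mk_pos_nil]

theorem eq_one_of_toWord_nil {x : FA d} (h : x.toWord = []) : x = 1 := by
  rw [← mk_toWord (x := x), h, ← one_eq_mk]

/-- An offset at a scan state is never protected. -/
theorem scan_not_inL : ∀ {st : State d} (σ : Path d st) {p : Pat} {s : Ltr d × Bool},
    st = .scan p s → (patRun p (offset d σ).toWord).inL = false := by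
  intro st σ
  induction σ with
  | nil => intro p s h; cases h
  | cons e he σ ih =>
    intro p s h
    cases he with
    | scan p₀ s₀ s' hf =>
      cases h
      rw [offset_cons_plain _ _ s' rfl rfl,
        toWord_cons_of_reduced (offset_shape σ).2, patRun_cons]
      exact ih rfl
    | scanEnd p₀ s₀ s' hf hp =>
      cases h
      rw [offset_cons_plain _ _ s' rfl rfl]
      have h1 : offset d σ = 1 := offset_shape σ
      rw [h1, mul_one, toWord_mk_of_reduced (List.isChain_singleton _)]
      exact hp
    | flood src p₀ s₀ hs => cases hs <;> cases h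
    | floodEnd src p₀ s₀ hs hp => cases hs <;> cases h
    | _ => cases h

/-- A scan state reaches every nonempty admissible word that is not protected. -/
theorem scan_exists (w : List (Ltr d × Bool)) : ∀ (p : Pat) (s : Ltr d × Bool), w ≠ [] →
    FreeGroup.IsReduced (s :: w) → (patRun p w).inL = false →
      ∃ σ : Path d (.scan p s), offset d σ = mk w := by
  induction w with
  | nil => intro p s h; exact absurd rfl h
  | cons s' w ih =>
    intro p s _ hr hL
    have hf : Follows d s s' := (isReduced_cons_iff.1 hr).2 s' rfl
    by_cases hw : w = []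
    · subst hw
      refine ⟨Path.cons _ (Edge.OK.scanEnd p s s' hf hL) Path.nil, ?_⟩
      rw [offset_cons_plain _ _ s' rfl rfl]
      show mk [s'] * 1 = _
      rw [mul_one]
    · obtain ⟨σ, hσ⟩ := ih (patNext d p s') s' hw (isReduced_cons_iff.1 hr).1 hL
      refine ⟨Path.cons _ (Edge.OK.scan p s s' hf) σ, ?_⟩
      rw [offset_cons_plain _ _ s' rfl rfl, hσ, mul_mk]
      rfl

/-- A flood reaches every admissible word that is not protected. -/
theorem flood_exists {src : State d} {p : Pat} {s : Ltr d × Bool} (hs : FloodStart d src p s)
    (w : List (Ltr d × Bool)) (hr : FreeGroup.IsReduced (s :: w))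
    (hL : (patRun p (s :: w)).inL = false) :
    ∃ σ : Path d src, offset d σ = mk (s :: w) := by
  by_cases hw : w = []
  · subst hw
    refine ⟨Path.cons _ (Edge.OK.floodEnd src p s hs hL) Path.nil, ?_⟩
    rw [offset_cons_plain _ _ s rfl rfl]
    show mk [s] * 1 = _
    rw [mul_one]
  · obtain ⟨σ, hσ⟩ := scan_exists w (patNext d p s) s hw hr hL
    refine ⟨Path.cons _ (Edge.OK.flood src p s hs) σ, ?_⟩
    rw [offset_cons_plain _ _ s rfl rfl, hσ, mul_mk]
    rfl

/-- At a boundary every word of the right shape outside the positive words is reached. -/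
theorem bd_exists {i : Bool} {x : FA d} (hx : Shape (.bd i) x) (h : ∀ u, x ≠ pw i u) :
    ∃ σ : Path d (.bd i), offset d σ = x := by
  obtain ⟨w, hw⟩ : ∃ w, x.toWord = ((d.M.first, i), true) :: w := by
    cases hc : x.toWord with
    | nil => simp [Shape, hc] at hx
    | cons a w => simp [Shape, hc] at hx; exact ⟨w, by rw [hx]⟩
  have hL : (patRun (.bd i) x.toWord).inL = false := by
    rw [← Bool.not_eq_true, patRun_bd_iff]
    rintro ⟨u, hu⟩
    exact h u (by rw [← mk_toWord (x := x), hu]; rfl)
  rw [hw] at hL
  obtain ⟨σ, hσ⟩ := flood_exists (FloodStart.bd i) w (hw ▸ isReduced_toWord) hL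
  exact ⟨σ, by rw [hσ, ← hw, mk_toWord]⟩

/-- Inside a row every word of the right shape outside the two-block words is reached. -/
theorem step_exists {i : Bool} {q : d.M.Q} {x : FA d} (hx : Shape (.step i q) x)
    (h : ∀ u v, x ≠ pw i u * pw (!i) v) : ∃ σ : Path d (.step i q), offset d σ = x := by
  obtain ⟨a, ha, hx⟩ := hx
  obtain ⟨w, hw⟩ : ∃ w, x.toWord = ((a, i), true) :: w := by
    cases hc : x.toWord with
    | nil => simp [hc] at hx
    | cons b w => simp [hc] at hx; exact ⟨w, by rw [hx]⟩
  have hL : (patRun (.step i false) x.toWord).inL = false := by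
    rw [← Bool.not_eq_true, patRun_step_iff]
    rintro ⟨u, v, hu⟩
    exact h u v (by rw [← mk_toWord (x := x), hu, pw, pw, mul_mk])
  rw [hw] at hL
  obtain ⟨σ, hσ⟩ := flood_exists (FloodStart.step i q a ha) w (hw ▸ isReduced_toWord) hL
  exact ⟨σ, by rw [hσ, ← hw, mk_toWord]⟩

end Vale.Agent.P193.Core
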